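import Mathlib

/-!
# Finitely supported functions with the `ℓ²` inner product
-/

set_option autoImplicit false

open Finset

namespace Vale.Agent.P151.R3.H771

universe u v

/-- Finitely supported real functions. -/
def FS (X : Type v) : Type v := X →₀ ℝ

namespace FS

variable {X : Type v}

noncomputable instance : AddCommGroup (FS X) := inferInstanceAs (AddCommGroup (X →₀ ℝ))
noncomputable instance : Module ℝ (FS X) := inferInstanceAs (Module ℝ (X →₀ ℝ))

/-- evaluation -/
def ev (f : FS X) : X → ℝ := fun x => (show X →₀ ℝ from f) x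

/-- support -/
def supp (f : FS X) : Finset X := (show X →₀ ℝ from f).support

theorem mem_supp {f : FS X} {x : X} : x ∈ f.supp ↔ f.ev x ≠ 0 := Finsupp.mem_support_iff

@[ext] theorem ext {f g : FS X} (h : ∀ x, f.ev x = g.ev x) : f = g := Finsupp.ext h

@[simp] theorem ev_add (f g : FS X) (x : X) : (f + g).ev x = f.ev x + g.ev x := rfl
@[simp] theorem ev_sub (f g : FS X) (x : X) : (f - g).ev x = f.ev x - g.ev x := rfl
@[simp] theorem ev_smul (c : ℝ) (f : FS X) (x : X) : (c • f).ev x = c * f.ev x := rfl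
@[simp] theorem ev_zero (x : X) : (0 : FS X).ev x = 0 := rfl

/-- inner product -/
noncomputable def ip (f g : FS X) : ℝ := ∑ x ∈ f.supp, f.ev x * g.ev x

theorem ip_eq (f g : FS X) (F : Finset X) (hF : f.supp ⊆ F) :
    ip f g = ∑ x ∈ F, f.ev x * g.ev x := by
  unfold ip
  refine Finset.sum_subset hF fun x _ hx => ?_
  rw [mem_supp, not_not] at hx
  rw [hx, zero_mul]

theorem ip_eq' (f g : FS X) (F : Finset X) (hF : g.supp ⊆ F) :
    ip f g = ∑ x ∈ F, f.ev x * g.ev x := by
  classical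
  rw [ip_eq f g (f.supp ∪ F) Finset.subset_union_left]
  symm
  refine Finset.sum_subset Finset.subset_union_right fun x _ hx => ?_
  have h1 : x ∉ g.supp := fun h => hx (hF h)
  rw [mem_supp, not_not] at h1
  rw [h1, mul_zero]

theorem ip_comm (f g : FS X) : ip f g = ip g f := by
  rw [ip_eq' f g g.supp (Finset.Subset.refl _)]
  unfold ip
  exact Finset.sum_congr rfl fun x _ => mul_comm _ _

noncomputable instance core : InnerProductSpace.Core ℝ (FS X) where
  inner f g := ip f g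
  conj_inner_symm f g := by
    show ip g f = ip f g
    exact ip_comm g f
  re_inner_nonneg f := by
    show 0 ≤ ip f f
    exact Finset.sum_nonneg fun x _ => mul_self_nonneg _
  add_left f g h := by
    show ip (f + g) h = ip f h + ip g h
    rw [ip_eq' (f + g) h h.supp (Finset.Subset.refl _), ip_eq' f h h.supp (Finset.Subset.refl _),
      ip_eq' g h h.supp (Finset.Subset.refl _), ← Finset.sum_add_distrib]
    refine Finset.sum_congr rfl fun x _ => ?_
    rw [ev_add, add_mul]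
  smul_left f g c := by
    show ip (c • f) g = c * ip f g
    rw [ip_eq' (c • f) g g.supp (Finset.Subset.refl _), ip_eq' f g g.supp (Finset.Subset.refl _),
      Finset.mul_sum]
    refine Finset.sum_congr rfl fun x _ => ?_
    rw [ev_smul, mul_assoc]
  definite f hf := by
    have h1 : ∑ x ∈ f.supp, f.ev x * f.ev x = 0 := hf
    rw [Finset.sum_eq_zero_iff_of_nonneg fun x _ => mul_self_nonneg _] at h1
    refine ext fun x => ?_
    by_cases hx : x ∈ f.supp
    · exact mul_self_eq_zero.1 (h1 x hx)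
    · rw [mem_supp, not_not] at hx
      rw [hx, ev_zero]

noncomputable instance : NormedAddCommGroup (FS X) := InnerProductSpace.Core.toNormedAddCommGroup (𝕜 := ℝ)

noncomputable instance : InnerProductSpace ℝ (FS X) := InnerProductSpace.ofCore core.toCore

theorem inner_def (f g : FS X) : inner ℝ f g = ip f g := rfl

theorem norm_sq (f : FS X) (F : Finset X) (hF : f.supp ⊆ F) : ‖f‖ ^ 2 = ∑ x ∈ F, f.ev x ^ 2 := by
  rw [← real_inner_self_eq_norm_sq, inner_def, ip_eq f f F hF]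
  exact Finset.sum_congr rfl fun x _ => (sq _).symm

section act

variable {Δ : Type u} [Group Δ] [MulAction Δ X]

/-- The permutation representation. -/
noncomputable def rep (Δ : Type u) [Group Δ] [MulAction Δ X] : Δ →* (FS X →ₗ[ℝ] FS X) where
  toFun g := (Finsupp.domLCongr (MulAction.toPerm g) : (X →₀ ℝ) ≃ₗ[ℝ] (X →₀ ℝ)).toLinearMap
  map_one' := by
    refine LinearMap.ext fun (f : FS X) => ext fun x => ?_
    show (Finsupp.equivMapDomain (MulAction.toPerm (1 : Δ)) (show X →₀ ℝ from f)) x = FS.ev f x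
    rw [Finsupp.equivMapDomain_apply]
    show (show X →₀ ℝ from f) ((1 : Δ)⁻¹ • x) = _
    rw [inv_one, one_smul]
    rfl
  map_mul' g h := by
    refine LinearMap.ext fun f => ext fun x => ?_
    show (Finsupp.equivMapDomain (MulAction.toPerm (g * h)) (show X →₀ ℝ from f)) x =
      (Finsupp.equivMapDomain (MulAction.toPerm g)
        (Finsupp.equivMapDomain (MulAction.toPerm h) (show X →₀ ℝ from f))) x
    rw [Finsupp.equivMapDomain_apply, Finsupp.equivMapDomain_apply, Finsupp.equivMapDomain_apply]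
    show (show X →₀ ℝ from f) ((g * h)⁻¹ • x) = (show X →₀ ℝ from f) (h⁻¹ • g⁻¹ • x)
    rw [mul_inv_rev, mul_smul]

theorem rep_ev (g : Δ) (f : FS X) (x : X) : (rep Δ g f).ev x = f.ev (g⁻¹ • x) := rfl

open Classical in
theorem supp_rep (g : Δ) (f : FS X) : (rep Δ g f).supp = f.supp.image (g • ·) := by
  ext x
  rw [mem_supp, rep_ev, Finset.mem_image]
  constructor
  · intro h
    exact ⟨g⁻¹ • x, mem_supp.2 h, smul_inv_smul g x⟩
  · rintro ⟨y, hy, rfl⟩
    rw [inv_smul_smul]
    exact mem_supp.1 hy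

theorem norm_rep (g : Δ) (f : FS X) : ‖rep Δ g f‖ = ‖f‖ := by
  classical
  have h1 : ‖rep Δ g f‖ ^ 2 = ‖f‖ ^ 2 := by
    rw [norm_sq _ _ (Finset.Subset.refl _), norm_sq f _ (Finset.Subset.refl _), supp_rep,
      Finset.sum_image fun x _ y _ h => MulAction.injective g h]
    refine Finset.sum_congr rfl fun x _ => ?_
    rw [rep_ev, inv_smul_smul]
  exact (sq_eq_sq₀ (norm_nonneg _) (norm_nonneg _)).1 h1

end act

/-- **Schur test.** -/
theorem schur (F H : Finset X) (m : X → X → ℝ) (hm : ∀ x ∈ F, ∀ y ∈ H, 0 ≤ m x y) (A : ℝ)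
    (hA : 0 ≤ A) (h1 : ∀ x ∈ F, ∑ y ∈ H, m x y ≤ A) (h2 : ∀ y ∈ H, ∑ x ∈ F, m x y ≤ A)
    (f u : X → ℝ) (hu : ∀ x ∈ F, |u x| ≤ ∑ y ∈ H, m x y * |f y|) :
    ∑ x ∈ F, u x ^ 2 ≤ A ^ 2 * ∑ y ∈ H, f y ^ 2 := by
  have h3 : ∀ x ∈ F, u x ^ 2 ≤ A * ∑ y ∈ H, m x y * f y ^ 2 := by
    intro x hx
    have h4 : (∑ y ∈ H, m x y * |f y|) ^ 2 ≤ (∑ y ∈ H, m x y) * ∑ y ∈ H, m x y * f y ^ 2 := by
      refine Finset.sum_sq_le_sum_mul_sum_of_sq_le_mul H (fun y hy => hm x hx y hy)
        (fun y hy => mul_nonneg (hm x hx y hy) (sq_nonneg _)) fun y _ => le_of_eq ?_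
      rw [mul_pow, sq_abs]
      ring
    have h5 : 0 ≤ ∑ y ∈ H, m x y * f y ^ 2 :=
      Finset.sum_nonneg fun y hy => mul_nonneg (hm x hx y hy) (sq_nonneg _)
    calc u x ^ 2 = |u x| ^ 2 := (sq_abs _).symm
      _ ≤ (∑ y ∈ H, m x y * |f y|) ^ 2 := pow_le_pow_left₀ (abs_nonneg _) (hu x hx) 2
      _ ≤ _ := h4
      _ ≤ _ := mul_le_mul_of_nonneg_right (h1 x hx) h5
  calc ∑ x ∈ F, u x ^ 2 ≤ ∑ x ∈ F, A * ∑ y ∈ H, m x y * f y ^ 2 := Finset.sum_le_sum h3
    _ = A * ∑ y ∈ H, (∑ x ∈ F, m x y) * f y ^ 2 := by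
        rw [← Finset.mul_sum, Finset.sum_comm]
        congr 1
        exact Finset.sum_congr rfl fun y _ => (Finset.sum_mul _ _ _).symm
    _ ≤ A * ∑ y ∈ H, A * f y ^ 2 := by
        refine mul_le_mul_of_nonneg_left (Finset.sum_le_sum fun y hy => ?_) hA
        exact mul_le_mul_of_nonneg_right (h2 y hy) (sq_nonneg _)
    _ = A ^ 2 * ∑ y ∈ H, f y ^ 2 := by
        rw [← Finset.mul_sum]
        ring

end FS

end Vale.Agent.P151.R3.H771
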