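import Vale.Agent.P151.R3.H771.FS

/-!
# Smoothing by an invariant kernel on a homogeneous integer metric space
-/

set_option autoImplicit false

open Finset

namespace Vale.Agent.P151.R3.H771

universe u v

/-- A proper integer (pseudo)metric space all of whose balls of the same radius have the same
cardinality. -/
structure HM (X : Type v) where
  ρ : X → X → ℕ
  ρ_self : ∀ x, ρ x x = 0
  ρ_symm : ∀ x y, ρ x y = ρ y x
  ρ_tri : ∀ x y z, ρ x z ≤ ρ x y + ρ y z
  B : X → ℕ → Finset X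
  mem_B : ∀ x k y, y ∈ B x k ↔ ρ x y ≤ k
  vol : ℕ → ℕ
  card_B : ∀ x k, (B x k).card = vol k

namespace HM

variable {X : Type v} (M : HM X)

/-- total mass of the kernel `(r - ρ)₊` -/
noncomputable def Z (r : ℕ) : ℝ := ∑ k ∈ Finset.range r, (M.vol k : ℝ)

theorem vol_mono {k l : ℕ} (h : k ≤ l) (x : X) : M.vol k ≤ M.vol l := by
  rw [← M.card_B x k, ← M.card_B x l]
  exact Finset.card_le_card fun y hy => (M.mem_B _ _ _).2 (((M.mem_B _ _ _).1 hy).trans h)

theorem vol_pos (x : X) (k : ℕ) : 0 < M.vol k := by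
  rw [← M.card_B x k]
  exact Finset.card_pos.2 ⟨x, (M.mem_B _ _ _).2 (by rw [M.ρ_self]; exact Nat.zero_le _)⟩

theorem sum_kernel (r : ℕ) (y : X) (F : Finset X) (hF : M.B y r ⊆ F) :
    ∑ x ∈ F, ((r - M.ρ y x : ℕ) : ℝ) = M.Z r := by
  have h1 : ∀ x : X, ((r - M.ρ y x : ℕ) : ℝ) =
      ∑ k ∈ Finset.range r, (if M.ρ y x ≤ k then (1 : ℝ) else 0) := by
    intro x
    rw [← Finset.sum_filter, Finset.sum_const, nsmul_eq_mul, mul_one]
    congr 1
    have h2 : (Finset.range r).filter (fun k => M.ρ y x ≤ k) = Finset.Ico (M.ρ y x) r := by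
      ext k
      rw [Finset.mem_filter, Finset.mem_range, Finset.mem_Ico]
      exact and_comm
    rw [h2, Nat.card_Ico]
  unfold Z
  rw [Finset.sum_congr rfl fun x _ => h1 x, Finset.sum_comm]
  refine Finset.sum_congr rfl fun k hk => ?_
  rw [← Finset.sum_filter, Finset.sum_const, nsmul_eq_mul, mul_one, ← M.card_B y k]
  congr 2
  ext x
  rw [Finset.mem_filter, M.mem_B]
  refine ⟨fun h => h.2, fun h => ⟨hF ((M.mem_B _ _ _).2 (h.trans (Finset.mem_range.1 hk).le)), h⟩⟩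

theorem sum_kernel_le (r : ℕ) (y : X) (F : Finset X) :
    ∑ x ∈ F, ((r - M.ρ y x : ℕ) : ℝ) ≤ M.Z r := by
  classical
  rw [← M.sum_kernel r y (M.B y r ∪ F) Finset.subset_union_left]
  exact Finset.sum_le_sum_of_subset_of_nonneg Finset.subset_union_right
    fun x _ _ => Nat.cast_nonneg _

theorem Z_low (r : ℕ) (x : X) : (r : ℝ) * M.vol r ≤ M.Z (2 * r) := by
  unfold Z
  calc (r : ℝ) * M.vol r = ∑ k ∈ Finset.Ico r (2 * r), (M.vol r : ℝ) := by
        rw [Finset.sum_const, Nat.card_Ico, nsmul_eq_mul]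
        congr 2
        omega
    _ ≤ ∑ k ∈ Finset.Ico r (2 * r), (M.vol k : ℝ) :=
        Finset.sum_le_sum fun k hk => by exact_mod_cast M.vol_mono (Finset.mem_Ico.1 hk).1 x
    _ ≤ ∑ k ∈ Finset.range (2 * r), (M.vol k : ℝ) := by
        refine Finset.sum_le_sum_of_subset_of_nonneg ?_ fun k _ _ => Nat.cast_nonneg _
        intro k hk
        exact Finset.mem_range.2 (Finset.mem_Ico.1 hk).2

theorem Z_pos {r : ℕ} (hr : 1 ≤ r) (x : X) : 0 < M.Z r := by
  unfold Z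
  refine Finset.sum_pos (fun k _ => by exact_mod_cast M.vol_pos x k)
    ⟨0, Finset.mem_range.2 hr⟩

/-- the kernel -/
noncomputable def ker (r : ℕ) (y x : X) : ℝ := ((r - M.ρ y x : ℕ) : ℝ) / M.Z r

theorem ker_nonneg (r : ℕ) (y x : X) : 0 ≤ M.ker r y x :=
  div_nonneg (Nat.cast_nonneg _) (Finset.sum_nonneg fun _ _ => Nat.cast_nonneg _)

theorem ker_symm (r : ℕ) (y x : X) : M.ker r y x = M.ker r x y := by
  unfold ker
  rw [M.ρ_symm]

theorem Z_nonneg (r : ℕ) : 0 ≤ M.Z r := Finset.sum_nonneg fun _ _ => Nat.cast_nonneg _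

theorem sum_ker_le (r : ℕ) (y : X) (F : Finset X) : ∑ x ∈ F, M.ker r y x ≤ 1 := by
  unfold ker
  rw [← Finset.sum_div]
  exact div_le_one_of_le₀ (M.sum_kernel_le r y F) (M.Z_nonneg r)

theorem sum_ker {r : ℕ} (hr : 1 ≤ r) (y : X) (F : Finset X) (hF : M.B y r ⊆ F) :
    ∑ x ∈ F, M.ker r y x = 1 := by
  unfold ker
  rw [← Finset.sum_div, M.sum_kernel r y F hF, div_self (M.Z_pos hr y).ne']

theorem ker_eq_zero {r : ℕ} {y x : X} (h : r ≤ M.ρ y x) : M.ker r y x = 0 := by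
  unfold ker
  rw [Nat.sub_eq_zero_of_le h, Nat.cast_zero, zero_div]

/-- one column -/
noncomputable def nu (r : ℕ) (y : X) : FS X :=
  Finsupp.onFinset (M.B y r) (fun x => M.ker r y x) fun x hx => by
    rw [M.mem_B]
    by_contra hcon
    exact hx (M.ker_eq_zero (by omega))

theorem nu_ev (r : ℕ) (y x : X) : (M.nu r y).ev x = M.ker r y x := rfl

/-- smoothing -/
noncomputable def N (r : ℕ) : FS X →ₗ[ℝ] FS X :=
  (Finsupp.linearCombination ℝ (fun y => M.nu r y) : (X →₀ ℝ) →ₗ[ℝ] FS X)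

/-- evaluation at a point as a linear map -/
def evL (x : X) : FS X →ₗ[ℝ] ℝ where
  toFun f := f.ev x
  map_add' _ _ := rfl
  map_smul' _ _ := rfl

theorem N_ev (r : ℕ) (f : FS X) (F : Finset X) (hF : f.supp ⊆ F) (x : X) :
    (M.N r f).ev x = ∑ y ∈ F, M.ker r x y * f.ev y := by
  have h1 : M.N r f = ∑ y ∈ f.supp, f.ev y • M.nu r y := rfl
  have h2 : (M.N r f).ev x = ∑ y ∈ f.supp, M.ker r x y * f.ev y := by
    rw [h1]
    show evL x (∑ y ∈ f.supp, f.ev y • M.nu r y) = _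
    rw [map_sum]
    refine Finset.sum_congr rfl fun y _ => ?_
    show f.ev y * (M.nu r y).ev x = _
    rw [nu_ev, M.ker_symm, mul_comm]
  rw [h2]
  refine Finset.sum_subset hF fun y _ hy => ?_
  rw [FS.mem_supp, not_not] at hy
  rw [hy, mul_zero]

/-- supports grow by `r` -/
theorem supp_N {r : ℕ} {f : FS X} {o : X} {k : ℕ} (hf : ∀ x ∈ f.supp, M.ρ o x ≤ k) :
    ∀ x ∈ (M.N r f).supp, M.ρ o x ≤ k + r := by
  intro x hx
  rw [FS.mem_supp, M.N_ev r f f.supp (Finset.Subset.refl _)] at hx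
  obtain ⟨y, hy, hne⟩ := Finset.exists_ne_zero_of_sum_ne_zero hx
  have h1 : M.ρ x y < r := by
    by_contra hcon
    exact hne (by rw [M.ker_eq_zero (by omega), zero_mul])
  have h2 := M.ρ_tri o y x
  have h3 := hf y hy
  rw [M.ρ_symm y x] at h2
  omega

/-- smoothing is a contraction -/
theorem norm_N_le (r : ℕ) (f : FS X) : ‖M.N r f‖ ≤ ‖f‖ := by
  have h1 : ‖M.N r f‖ ^ 2 ≤ ‖f‖ ^ 2 := by
    rw [FS.norm_sq _ _ (Finset.Subset.refl _), FS.norm_sq f _ (Finset.Subset.refl _)]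
    have h2 := FS.schur (M.N r f).supp f.supp (fun x y => M.ker r x y)
      (fun x _ y _ => M.ker_nonneg r x y) 1 zero_le_one (fun x _ => M.sum_ker_le r x _)
      (fun y _ => by
        rw [Finset.sum_congr rfl fun x _ => M.ker_symm r x y]
        exact M.sum_ker_le r y _) f.ev (M.N r f).ev (fun x _ => by
        rw [M.N_ev r f f.supp (Finset.Subset.refl _)]
        refine (Finset.abs_sum_le_sum_abs _ _).trans (Finset.sum_le_sum fun y _ => ?_)
        rw [abs_mul, abs_of_nonneg (M.ker_nonneg r x y)])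
    rwa [one_pow, one_mul] at h2
  exact (sq_le_sq₀ (norm_nonneg _) (norm_nonneg _)).1 h1

/-- Lipschitz bound of the kernel -/
theorem ker_lip (r : ℕ) (x x' y : X) :
    |M.ker r x' y - M.ker r x y| ≤ M.ρ x x' / M.Z r := by
  unfold ker
  rw [← sub_div, abs_div, abs_of_nonneg (M.Z_nonneg r)]
  refine div_le_div_of_nonneg_right ?_ (M.Z_nonneg r)
  have h1 := M.ρ_tri x x' y
  have h2 := M.ρ_tri x' x y
  rw [M.ρ_symm x' x] at h2
  have h3 : r - M.ρ x' y ≤ (r - M.ρ x y) + M.ρ x x' := by omega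
  have h4 : r - M.ρ x y ≤ (r - M.ρ x' y) + M.ρ x x' := by omega
  have h3' : ((r - M.ρ x' y : ℕ) : ℝ) ≤ ((r - M.ρ x y : ℕ) : ℝ) + M.ρ x x' := by exact_mod_cast h3
  have h4' : ((r - M.ρ x y : ℕ) : ℝ) ≤ ((r - M.ρ x' y : ℕ) : ℝ) + M.ρ x x' := by exact_mod_cast h4
  rw [abs_le]
  constructor <;> linarith

section act

variable {Δ : Type u} [Group Δ] [MulAction Δ X]

/-- the action is isometric -/
def Iso (Δ : Type u) [Group Δ] [MulAction Δ X] : Prop :=
  ∀ (g : Δ) x y, M.ρ (g • x) (g • y) = M.ρ x y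

variable {M}

theorem Iso.ker (hi : M.Iso Δ) (r : ℕ) (g : Δ) (x y : X) :
    M.ker r (g • x) (g • y) = M.ker r x y := by
  unfold HM.ker
  rw [hi]

theorem Iso.N_rep (hi : M.Iso Δ) (r : ℕ) (g : Δ) (f : FS X) :
    M.N r (FS.rep Δ g f) = FS.rep Δ g (M.N r f) := by
  classical
  refine FS.ext fun x => ?_
  rw [M.N_ev r _ _ (Finset.Subset.refl _), FS.supp_rep,
    Finset.sum_image fun x _ y _ h => MulAction.injective g h, FS.rep_ev,
    M.N_ev r f _ (Finset.Subset.refl _)]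
  refine Finset.sum_congr rfl fun y _ => ?_
  rw [FS.rep_ev, inv_smul_smul]
  congr 1
  have := hi.ker r g (g⁻¹ • x) y
  rw [smul_inv_smul] at this
  exact this

/-- **Key estimate**: translates of a smoothed function by elements with short conjugates. -/
theorem key (M : HM X) {r : ℕ} (hr : 1 ≤ r) (o : X) (f : FS X) (s : Δ) (δ : ℕ) (hδ : δ ≤ r)
    (hs : ∀ x ∈ (FS.rep Δ s (M.N r f) - M.N r f).supp, M.ρ x (s⁻¹ • x) ≤ δ) :
    ‖FS.rep Δ s (M.N r f) - M.N r f‖ ≤ δ * M.vol (2 * r) / M.Z r * ‖f‖ := by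
  classical
  have hZ := M.Z_pos hr o
  set D := FS.rep Δ s (M.N r f) - M.N r f with hD
  have hA : (0 : ℝ) ≤ δ * M.vol (2 * r) / M.Z r := by positivity
  have hcount : ∀ (x : X) (F : Finset X),
      ∑ y ∈ F, (if M.ρ x y ≤ 2 * r then (δ : ℝ) / M.Z r else 0) ≤ δ * M.vol (2 * r) / M.Z r := by
    intro x F
    rw [← Finset.sum_filter, Finset.sum_const, nsmul_eq_mul]
    have h1 : (F.filter fun y => M.ρ x y ≤ 2 * r).card ≤ M.vol (2 * r) := by
      rw [← M.card_B x (2 * r)]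
      exact Finset.card_le_card fun y hy => (M.mem_B _ _ _).2 (Finset.mem_filter.1 hy).2
    have h2 : ((F.filter fun y => M.ρ x y ≤ 2 * r).card : ℝ) ≤ M.vol (2 * r) := by exact_mod_cast h1
    calc ((F.filter fun y => M.ρ x y ≤ 2 * r).card : ℝ) * (δ / M.Z r)
        ≤ M.vol (2 * r) * (δ / M.Z r) := mul_le_mul_of_nonneg_right h2 (by positivity)
      _ = δ * M.vol (2 * r) / M.Z r := by ring
  have h1 : ‖D‖ ^ 2 ≤ (δ * M.vol (2 * r) / M.Z r * ‖f‖) ^ 2 := by
    rw [mul_pow, FS.norm_sq D _ (Finset.Subset.refl _), FS.norm_sq f _ (Finset.Subset.refl _)]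
    refine FS.schur D.supp f.supp (fun x y => if M.ρ x y ≤ 2 * r then (δ : ℝ) / M.Z r else 0)
      (fun x _ y _ => by split_ifs <;> positivity) _ hA (fun x _ => hcount x _)
      (fun y _ => ?_) f.ev D.ev fun x hx => ?_
    · rw [Finset.sum_congr rfl fun x _ => by rw [M.ρ_symm x y]]
      exact hcount y _
    · have h2 : D.ev x = ∑ y ∈ f.supp, (M.ker r (s⁻¹ • x) y - M.ker r x y) * f.ev y := by
        rw [hD, FS.ev_sub, FS.rep_ev, M.N_ev r f _ (Finset.Subset.refl _),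
          M.N_ev r f _ (Finset.Subset.refl _), ← Finset.sum_sub_distrib]
        exact Finset.sum_congr rfl fun y _ => by ring
      rw [h2]
      refine (Finset.abs_sum_le_sum_abs _ _).trans (Finset.sum_le_sum fun y _ => ?_)
      rw [abs_mul]
      refine mul_le_mul_of_nonneg_right ?_ (abs_nonneg _)
      have h3 := hs x hx
      split_ifs with h4
      · refine (M.ker_lip r x (s⁻¹ • x) y).trans (div_le_div_of_nonneg_right ?_ hZ.le)
        exact_mod_cast h3
      · have h5 := M.ρ_tri x (s⁻¹ • x) y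
        rw [M.ker_eq_zero (by omega), M.ker_eq_zero (by omega), sub_zero, abs_zero]
  exact (sq_le_sq₀ (norm_nonneg _) (mul_nonneg hA (norm_nonneg _))).1 h1

end act

/-- total sum -/
noncomputable def tot : FS X →ₗ[ℝ] ℝ :=
  (Finsupp.linearCombination ℝ (fun _ => (1 : ℝ)) : (X →₀ ℝ) →ₗ[ℝ] ℝ)

theorem tot_eq (f : FS X) (F : Finset X) (hF : f.supp ⊆ F) : tot f = ∑ x ∈ F, f.ev x := by
  have h1 : tot f = ∑ x ∈ f.supp, f.ev x • (1 : ℝ) := rfl
  rw [h1]
  simp only [smul_eq_mul, mul_one]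
  refine Finset.sum_subset hF fun y _ hy => ?_
  rwa [FS.mem_supp, not_not] at hy

theorem tot_N {r : ℕ} (hr : 1 ≤ r) (f : FS X) : tot (M.N r f) = tot f := by
  classical
  have h1 : (M.N r f).supp ⊆ (M.N r f).supp ∪ f.supp.biUnion (fun y => M.B y r) :=
    Finset.subset_union_left
  rw [tot_eq _ _ h1, tot_eq f _ (Finset.Subset.refl _)]
  rw [Finset.sum_congr rfl fun x _ => M.N_ev r f f.supp (Finset.Subset.refl _) x,
    Finset.sum_comm]
  refine Finset.sum_congr rfl fun y hy => ?_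
  rw [← Finset.sum_mul, Finset.sum_congr rfl fun x _ => M.ker_symm r x y,
    M.sum_ker hr y _ (Finset.Subset.trans (Finset.subset_biUnion_of_mem (fun y => M.B y r) hy)
      Finset.subset_union_right), one_mul]

theorem tot_sq_le (f : FS X) (F : Finset X) (hF : f.supp ⊆ F) :
    tot f ^ 2 ≤ F.card * ‖f‖ ^ 2 := by
  rw [tot_eq f F hF, FS.norm_sq f F hF]
  exact sq_sum_le_card_mul_sum_sq

end HM

end Vale.Agent.P151.R3.H771
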