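import Vale.Agent.P151.R3.H771.LimHom
import Vale.Agent.P151.R3.H771.Smooth

/-!
# Lemma G: short conjugates on a window give a nonzero homomorphism to `ℝ`
-/

set_option autoImplicit false

open Finset Pointwise

namespace Vale.Agent.P151.R3.H771

universe u v

/-- One window for Lemma G. `S` is a symmetric generating set of `Δ` containing `1`. -/
structure GWin (Δ : Type u) [Group Δ] (S : Set Δ) (K1 : Subgroup Δ) (ε : ℝ) where
  X : Type v
  [act : MulAction Δ X]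
  M : HM X
  iso : ∀ (g : Δ) x y, M.ρ (g • x) (g • y) = M.ρ x y
  o : X
  fix : ∀ κ ∈ K1, κ • o = o
  r0 : ℕ
  A : ℕ
  r : ℕ
  J : ℕ
  w : ℕ
  L : ℕ
  δ : ℕ
  hr : 1 ≤ r
  hw : 1 ≤ w
  hδ : δ ≤ r
  small : ∀ g ∈ S ^ w, M.ρ o (g • o) ≤ A
  far : ∃ g ∈ S ^ L, 2 * (A + r0 + J * r) < M.ρ o (g • o)
  sc : ∀ s ∈ S, ∀ x, M.ρ o x ≤ 3 * A + r0 + J * r → M.ρ x (s • x) ≤ δ
  num : (L : ℝ) * (M.vol (A + r0) * M.vol (A + r0 + J * r) : ℝ).sqrt ≤ 2 ^ J * w * M.vol r0
  eps : 2 * (δ : ℝ) * M.vol (2 * r) ≤ ε * M.Z r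

attribute [instance] GWin.act

section Base

variable {Δ : Type u} [Group Δ] {X : Type v} [MulAction Δ X] (M : HM X) (S : Set Δ) (o : X)
  (r0 w : ℕ)

/-- the layers -/
def Lay (k : ℕ) : Set X := {x | ∃ g ∈ S ^ k, M.ρ o (g • x) ≤ r0}

open Classical in
/-- number of layers containing `x` -/
noncomputable def cnt (x : X) : ℕ := ((Finset.range w).filter fun k => x ∈ Lay M S o r0 k).card

variable {M S o r0 w}

theorem Lay_succ (hSi : ∀ s ∈ S, s⁻¹ ∈ S) {k : ℕ} {x : X} (hx : x ∈ Lay M S o r0 k) {s : Δ}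
    (hs : s ∈ S) : s • x ∈ Lay M S o r0 (k + 1) := by
  obtain ⟨g, hg, h⟩ := hx
  refine ⟨g * s⁻¹, ?_, ?_⟩
  · rw [pow_succ]
    exact Set.mul_mem_mul hg (hSi s hs)
  · rw [mul_smul, inv_smul_smul]
    exact h

theorem cnt_le (hSi : ∀ s ∈ S, s⁻¹ ∈ S) (x : X) {s : Δ} (hs : s ∈ S) :
    cnt M S o r0 w x ≤ cnt M S o r0 w (s • x) + 1 := by
  classical
  unfold cnt
  have h1 : ((Finset.range w).filter fun k => x ∈ Lay M S o r0 k).image (fun k => k + 1) ⊆
      ((Finset.range w).filter fun k => s • x ∈ Lay M S o r0 k) ∪ {w} := by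
    intro l hl
    rw [Finset.mem_image] at hl
    obtain ⟨k, hk, rfl⟩ := hl
    rw [Finset.mem_filter, Finset.mem_range] at hk
    rw [Finset.mem_union, Finset.mem_filter, Finset.mem_range, Finset.mem_singleton]
    rcases Nat.lt_or_ge (k + 1) w with h | h
    · exact Or.inl ⟨h, Lay_succ hSi hk.2 hs⟩
    · exact Or.inr (by omega)
  have h2 := Finset.card_le_card h1
  rw [Finset.card_image_of_injective _ (add_left_injective 1)] at h2
  refine h2.trans ((Finset.card_union_le _ _).trans ?_)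
  rw [Finset.card_singleton]

theorem cnt_le_w (x : X) : cnt M S o r0 w x ≤ w := by
  classical
  unfold cnt
  refine (Finset.card_filter_le _ _).trans ?_
  rw [Finset.card_range]

theorem cnt_eq_w (h1 : (1 : Δ) ∈ S) {x : X} (hx : M.ρ o x ≤ r0) : cnt M S o r0 w x = w := by
  classical
  unfold cnt
  rw [Finset.filter_true_of_mem, Finset.card_range]
  intro k _
  refine ⟨1, ?_, by rwa [one_smul]⟩
  have := Set.pow_mem_pow (n := k) h1
  rwa [one_pow] at this

theorem ρ_of_cnt (hi : M.Iso Δ) (h1 : (1 : Δ) ∈ S) {A : ℕ}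
    (small : ∀ g ∈ S ^ w, M.ρ o (g • o) ≤ A) {x : X}
    (hx : cnt M S o r0 w x ≠ 0) : M.ρ o x ≤ A + r0 := by
  classical
  unfold cnt at hx
  obtain ⟨k, hk⟩ := Finset.card_pos.1 (Nat.pos_of_ne_zero hx)
  rw [Finset.mem_filter, Finset.mem_range] at hk
  obtain ⟨hkw, g, hg, h⟩ := hk
  have h2 : g ∈ S ^ w := Set.pow_subset_pow_right h1 hkw.le hg
  have h3 := small g h2
  -- `ρ(o, x) = ρ(g o, g x)`
  have h4 := hi g o x
  have h5 := M.ρ_tri (g • o) o (g • x)
  rw [M.ρ_symm (g • o) o] at h5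
  omega

variable (M S o r0 w) in
/-- the initial function -/
noncomputable def phi0 (A : ℕ) (hi : M.Iso Δ) (h1 : (1 : Δ) ∈ S)
    (small : ∀ g ∈ S ^ w, M.ρ o (g • o) ≤ A) : FS X :=
  Finsupp.onFinset (M.B o (A + r0)) (fun x => (cnt M S o r0 w x : ℝ) / w) fun x hx => by
    rw [M.mem_B]
    refine ρ_of_cnt hi h1 small fun h0 => hx ?_
    rw [h0, Nat.cast_zero, zero_div]

variable {A : ℕ} (hi : M.Iso Δ) (h1 : (1 : Δ) ∈ S) (small : ∀ g ∈ S ^ w, M.ρ o (g • o) ≤ A)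

theorem phi0_ev (x : X) : (phi0 M S o r0 w A hi h1 small).ev x = (cnt M S o r0 w x : ℝ) / w := rfl

theorem supp_phi0 (x : X) (hx : x ∈ (phi0 M S o r0 w A hi h1 small).supp) : M.ρ o x ≤ A + r0 := by
  refine ρ_of_cnt hi h1 small fun h0 => ?_
  rw [FS.mem_supp, phi0_ev, h0, Nat.cast_zero, zero_div] at hx
  exact hx rfl

theorem tot_phi0 (hw : 1 ≤ w) : (M.vol r0 : ℝ) ≤ HM.tot (phi0 M S o r0 w A hi h1 small) := by
  classical
  have h2 : (phi0 M S o r0 w A hi h1 small).supp ⊆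
      (phi0 M S o r0 w A hi h1 small).supp ∪ M.B o r0 := Finset.subset_union_left
  rw [HM.tot_eq _ _ h2]
  calc (M.vol r0 : ℝ) = ∑ x ∈ M.B o r0, (phi0 M S o r0 w A hi h1 small).ev x := by
        rw [Finset.sum_congr rfl fun x hx => by
          rw [phi0_ev, cnt_eq_w h1 ((M.mem_B _ _ _).1 hx),
            div_self (by exact_mod_cast (by omega : w ≠ 0))], Finset.sum_const, M.card_B,
          nsmul_eq_mul, mul_one]
    _ ≤ _ := by
        refine Finset.sum_le_sum_of_subset_of_nonneg Finset.subset_union_right fun x _ _ => ?_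
        rw [phi0_ev]
        positivity

/-- the first increments are small -/
theorem norm_phi0 (hSi : ∀ s ∈ S, s⁻¹ ∈ S) (hw : 1 ≤ w) {s : Δ} (hs : s ∈ S) :
    ‖FS.rep Δ s (phi0 M S o r0 w A hi h1 small) - phi0 M S o r0 w A hi h1 small‖ ≤
      (2 * M.vol (A + r0) : ℝ).sqrt / w := by
  classical
  set φ := phi0 M S o r0 w A hi h1 small with hφ
  have hw0 : (0 : ℝ) < w := by exact_mod_cast hw
  set F := M.B o (A + r0) ∪ (M.B o (A + r0)).image (s • ·) with hF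
  have hsub : (FS.rep Δ s φ - φ).supp ⊆ F := by
    intro x hx
    rw [hF, Finset.mem_union, Finset.mem_image]
    by_contra hcon
    rw [not_or] at hcon
    rw [FS.mem_supp, FS.ev_sub, FS.rep_ev] at hx
    have h2 : φ.ev x = 0 := by
      by_contra h3
      exact hcon.1 ((M.mem_B _ _ _).2 (supp_phi0 hi h1 small x (FS.mem_supp.2 h3)))
    have h3 : φ.ev (s⁻¹ • x) = 0 := by
      by_contra h4
      exact hcon.2 ⟨s⁻¹ • x, (M.mem_B _ _ _).2 (supp_phi0 hi h1 small _ (FS.mem_supp.2 h4)),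
        smul_inv_smul s x⟩
    rw [h2, h3, sub_zero] at hx
    exact hx rfl
  have hcard : (F.card : ℝ) ≤ 2 * M.vol (A + r0) := by
    have h2 : F.card ≤ M.vol (A + r0) + M.vol (A + r0) := by
      refine (Finset.card_union_le _ _).trans (Nat.add_le_add (M.card_B _ _).le ?_)
      exact Finset.card_image_le.trans (M.card_B _ _).le
    have h3 : (F.card : ℝ) ≤ (M.vol (A + r0) : ℝ) + M.vol (A + r0) := by exact_mod_cast h2
    linarith
  have h2 : ‖FS.rep Δ s φ - φ‖ ^ 2 ≤ 2 * M.vol (A + r0) / (w : ℝ) ^ 2 := by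
    rw [FS.norm_sq _ F hsub]
    have h3 : ∀ x ∈ F, (FS.rep Δ s φ - φ).ev x ^ 2 ≤ (1 / (w : ℝ)) ^ 2 := by
      intro x _
      have h4 := cnt_le (M := M) (o := o) (r0 := r0) (w := w) hSi x (hSi s hs)
      have h5 := cnt_le (M := M) (o := o) (r0 := r0) (w := w) hSi (s⁻¹ • x) hs
      rw [smul_inv_smul] at h5
      have h4' : (cnt M S o r0 w x : ℝ) ≤ cnt M S o r0 w (s⁻¹ • x) + 1 := by exact_mod_cast h4
      have h5' : (cnt M S o r0 w (s⁻¹ • x) : ℝ) ≤ cnt M S o r0 w x + 1 := by exact_mod_cast h5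
      rw [FS.ev_sub, FS.rep_ev, hφ, phi0_ev, phi0_ev, ← sub_div, sq_le_sq, abs_div, abs_div,
        abs_of_pos hw0, abs_one]
      refine div_le_div_of_nonneg_right ?_ hw0.le
      rw [abs_le]
      constructor <;> linarith
    refine (Finset.sum_le_sum h3).trans ?_
    rw [Finset.sum_const, nsmul_eq_mul, div_pow, one_pow, mul_one_div]
    exact div_le_div_of_nonneg_right hcard (by positivity)
  have h3 : ‖FS.rep Δ s φ - φ‖ = Real.sqrt (‖FS.rep Δ s φ - φ‖ ^ 2) :=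
    (Real.sqrt_sq (norm_nonneg _)).symm
  rw [h3]
  refine (Real.sqrt_le_sqrt h2).trans (le_of_eq ?_)
  rw [Real.sqrt_div' _ (by positivity), Real.sqrt_sq hw0.le]

theorem rep_phi0 {K1 : Subgroup Δ} (hK : ∀ s ∈ S, ∀ κ ∈ K1, s * κ ∈ S)
    (fix : ∀ κ ∈ K1, κ • o = o) {κ : Δ} (hκ : κ ∈ K1) :
    FS.rep Δ κ (phi0 M S o r0 w A hi h1 small) = phi0 M S o r0 w A hi h1 small := by
  classical
  have hLay : ∀ (κ : Δ), κ ∈ K1 → ∀ (k : ℕ) (x : X), x ∈ Lay M S o r0 k →
      κ • x ∈ Lay M S o r0 k := by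
    intro κ hκ k x hx
    obtain ⟨g, hg, h⟩ := hx
    cases k with
    | zero =>
      rw [pow_zero, Set.mem_one] at hg
      refine ⟨1, by rw [pow_zero, Set.mem_one], ?_⟩
      rw [hg, one_smul] at h
      rw [one_smul]
      have h2 := hi κ o x
      rw [fix κ hκ] at h2
      omega
    | succ k =>
      refine ⟨g * κ⁻¹, ?_, ?_⟩
      · rw [pow_succ] at hg ⊢
        obtain ⟨a, ha, b, hb, rfl⟩ := hg
        refine ⟨a, ha, b * κ⁻¹, hK b hb _ (K1.inv_mem hκ), ?_⟩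
        show a * (b * κ⁻¹) = a * b * κ⁻¹
        rw [mul_assoc]
      · rw [mul_smul, inv_smul_smul]
        exact h
  refine FS.ext fun x => ?_
  rw [FS.rep_ev, phi0_ev, phi0_ev]
  have h2 : cnt M S o r0 w (κ⁻¹ • x) = cnt M S o r0 w x := by
    unfold cnt
    congr 1
    refine Finset.filter_congr fun k _ => ⟨fun h => ?_, fun h => hLay _ (K1.inv_mem hκ) k x h⟩
    have := hLay κ hκ k _ h
    rwa [smul_inv_smul] at this
  rw [h2]

end Base

/-- powers of the generating set -/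
theorem norm_pow_le {Δ : Type u} [Group Δ] {X : Type v} [MulAction Δ X] {S : Set Δ} {φ : FS X}
    {a : ℝ} (ha : ∀ t ∈ S, ‖FS.rep Δ t φ - φ‖ ≤ a) (n : ℕ) :
    ∀ g ∈ S ^ n, ‖FS.rep Δ g φ - φ‖ ≤ n * a := by
  induction n with
  | zero =>
    intro g hg
    rw [pow_zero, Set.mem_one] at hg
    rw [hg, map_one, Module.End.one_apply, sub_self, norm_zero, Nat.cast_zero, zero_mul]
  | succ n ih =>
    intro g hg
    rw [pow_succ] at hg
    obtain ⟨x, hx, y, hy, rfl⟩ := hg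
    have h1 : FS.rep Δ (x * y) φ - φ = (FS.rep Δ x φ - φ) + FS.rep Δ x (FS.rep Δ y φ - φ) := by
      rw [map_mul, Module.End.mul_apply, map_sub]
      abel
    show ‖FS.rep Δ (x * y) φ - φ‖ ≤ _
    rw [h1]
    refine (norm_add_le _ _).trans ?_
    rw [FS.norm_rep]
    have h2 := ih x hx
    have h3 := ha y hy
    push_cast
    linarith

/-- disjoint supports -/
theorem norm_far {Δ : Type u} [Group Δ] {X : Type v} [MulAction Δ X] {M : HM X} (hi : M.Iso Δ)
    {o : X} {φ : FS X} {R : ℕ} (hφ : ∀ x ∈ φ.supp, M.ρ o x ≤ R) {g : Δ}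
    (hg : 2 * R < M.ρ o (g • o)) : ‖FS.rep Δ g φ - φ‖ ^ 2 = 2 * ‖φ‖ ^ 2 := by
  classical
  have h1 : inner ℝ (FS.rep Δ g φ) φ = 0 := by
    rw [FS.inner_def, FS.ip]
    refine Finset.sum_eq_zero fun x hx => ?_
    by_contra hcon
    have h2 : φ.ev x ≠ 0 := right_ne_zero_of_mul hcon
    have h3 := hφ x (FS.mem_supp.2 h2)
    rw [FS.supp_rep, Finset.mem_image] at hx
    obtain ⟨y, hy, rfl⟩ := hx
    have h4 := hφ y hy
    have h5 := hi g o y
    have h6 := M.ρ_tri o (g • y) (g • o)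
    rw [M.ρ_symm (g • y) (g • o)] at h6
    omega
  rw [norm_sub_sq_real, h1, FS.norm_rep]
  ring

/-- **Lemma G, one window.** -/
theorem apx_of_win {Δ : Type u} [Group Δ] {S : Set Δ} {K1 : Subgroup Δ} {ε : ℝ}
    (h1 : (1 : Δ) ∈ S) (hSi : ∀ s ∈ S, s⁻¹ ∈ S) (hK : ∀ s ∈ S, ∀ κ ∈ K1, s * κ ∈ S)
    (S0 : Finset Δ) (hS0 : ∀ s ∈ S, ∃ t ∈ S0, ∃ κ ∈ K1, s = t * κ) (W : GWin.{u, v} Δ S K1 ε) :
    Nonempty (Apx.{u, v} Δ S S0 (K1 : Set Δ) ε) := by
  classical
  have hi : W.M.Iso Δ := W.iso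
  let φ : ℕ → FS W.X := fun j =>
    (W.M.N W.r)^[j] (phi0 W.M S W.o W.r0 W.w W.A hi h1 W.small)
  have hφ0 : φ 0 = phi0 W.M S W.o W.r0 W.w W.A hi h1 W.small := rfl
  have hφs : ∀ j, φ (j + 1) = W.M.N W.r (φ j) := fun j => Function.iterate_succ_apply' _ _ _
  have hsupp : ∀ j, ∀ x ∈ (φ j).supp, W.M.ρ W.o x ≤ W.A + W.r0 + j * W.r := by
    intro j
    induction j with
    | zero =>
      intro x hx
      have := supp_phi0 hi h1 W.small x hx
      omega
    | succ j ih =>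
      intro x hx
      rw [hφs] at hx
      have := W.M.supp_N ih x hx
      rw [Nat.succ_mul]
      omega
  have htot : ∀ j, (W.M.vol W.r0 : ℝ) ≤ HM.tot (φ j) := by
    intro j
    induction j with
    | zero => exact tot_phi0 hi h1 W.small W.hw
    | succ j ih => rw [hφs, W.M.tot_N W.hr]; exact ih
  have hinv : ∀ κ ∈ K1, ∀ j, FS.rep Δ κ (φ j) = φ j := by
    intro κ hκ j
    induction j with
    | zero => exact rep_phi0 hi h1 W.small hK W.fix hκ
    | succ j ih => rw [hφs, ← hi.N_rep, ih]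
  let b : ℕ → Δ → FS W.X := fun j t => FS.rep Δ t (φ j) - φ j
  have hbs : ∀ j t, b (j + 1) t = W.M.N W.r (b j t) := by
    intro j t
    show FS.rep Δ t (φ (j + 1)) - φ (j + 1) = W.M.N W.r (FS.rep Δ t (φ j) - φ j)
    rw [map_sub, hi.N_rep, hφs]
  let α : ℕ → ℝ := fun j => sSup ((fun t => ‖b j t‖) '' S)
  have hbdd : ∀ j, BddAbove ((fun t => ‖b j t‖) '' S) := by
    intro j
    refine ⟨2 * ‖φ j‖, ?_⟩
    rintro _ ⟨t, _, rfl⟩
    show ‖FS.rep Δ t (φ j) - φ j‖ ≤ _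
    refine (norm_sub_le _ _).trans ?_
    rw [FS.norm_rep]
    linarith
  have hne : ∀ j, ((fun t => ‖b j t‖) '' S).Nonempty := fun j => ⟨_, 1, h1, rfl⟩
  have hα : ∀ j, ∀ t ∈ S, ‖b j t‖ ≤ α j := fun j t ht => le_csSup (hbdd j) ⟨t, ht, rfl⟩
  have hα0 : ∀ j, 0 ≤ α j := fun j => (norm_nonneg _).trans (hα j 1 h1)
  have hmono : ∀ j, α (j + 1) ≤ α j := by
    intro j
    refine csSup_le (hne _) ?_
    rintro _ ⟨t, ht, rfl⟩
    show ‖b (j + 1) t‖ ≤ _
    rw [hbs]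
    exact (W.M.norm_N_le _ _).trans (hα j t ht)
  -- upper bound for `α 0`
  have hw0 : (0 : ℝ) < W.w := by exact_mod_cast W.hw
  have hup : α 0 ≤ (2 * W.M.vol (W.A + W.r0) : ℝ).sqrt / W.w := by
    refine csSup_le (hne _) ?_
    rintro _ ⟨t, ht, rfl⟩
    exact norm_phi0 hi h1 W.small hSi W.hw ht
  -- lower bound for `α J`
  have hv0 : (0 : ℝ) < W.M.vol W.r0 := by exact_mod_cast W.M.vol_pos W.o W.r0
  set V1 : ℝ := ((W.M.vol (W.A + W.r0) : ℕ) : ℝ) with hV1
  set V2 : ℝ := ((W.M.vol (W.A + W.r0 + W.J * W.r) : ℕ) : ℝ) with hV2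
  have hV1p : 0 < V1 := by rw [hV1]; exact_mod_cast W.M.vol_pos W.o _
  have hV2p : 0 < V2 := by rw [hV2]; exact_mod_cast W.M.vol_pos W.o _
  have hlow : Real.sqrt 2 * W.M.vol W.r0 ≤ W.L * Real.sqrt V2 * α W.J := by
    obtain ⟨g, hg, hfar⟩ := W.far
    have h2 := norm_far hi (hsupp W.J) hfar
    have h3 := norm_pow_le (hα W.J) W.L g hg
    have h4 : (W.M.vol W.r0 : ℝ) ^ 2 ≤ V2 * ‖φ W.J‖ ^ 2 := by
      have h5 := HM.tot_sq_le (φ W.J) (W.M.B W.o (W.A + W.r0 + W.J * W.r)) (fun x hx =>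
        (W.M.mem_B _ _ _).2 (hsupp W.J x hx))
      rw [W.M.card_B] at h5
      exact (pow_le_pow_left₀ hv0.le (htot W.J) 2).trans h5
    have h6 : 2 * ‖φ W.J‖ ^ 2 ≤ (W.L * α W.J) ^ 2 := by
      rw [← h2]
      exact pow_le_pow_left₀ (norm_nonneg _) h3 2
    have h7 : (Real.sqrt 2 * W.M.vol W.r0) ^ 2 ≤ (W.L * Real.sqrt V2 * α W.J) ^ 2 := by
      rw [mul_pow, Real.sq_sqrt (by norm_num : (0 : ℝ) ≤ 2)]
      calc 2 * (W.M.vol W.r0 : ℝ) ^ 2 ≤ 2 * (V2 * ‖φ W.J‖ ^ 2) := by linarith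
        _ = V2 * (2 * ‖φ W.J‖ ^ 2) := by ring
        _ ≤ V2 * (W.L * α W.J) ^ 2 := mul_le_mul_of_nonneg_left h6 hV2p.le
        _ = (W.L * Real.sqrt V2 * α W.J) ^ 2 := by
            rw [mul_pow, mul_pow, mul_pow, Real.sq_sqrt hV2p.le]
            ring
    exact (sq_le_sq₀ (by positivity)
      (mul_nonneg (mul_nonneg (Nat.cast_nonneg _) (Real.sqrt_nonneg _)) (hα0 _))).1 h7
  have hJpos : 0 < α W.J := by
    have h2 : 0 < Real.sqrt 2 * W.M.vol W.r0 := by positivity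
    by_contra hcon
    have h3 : α W.J = 0 := le_antisymm (not_lt.1 hcon) (hα0 _)
    rw [h3, mul_zero] at hlow
    linarith
  have hpos : ∀ j ≤ W.J, 0 < α j := by
    intro j hj
    have h2 : ∀ i, α (j + i) ≤ α j := by
      intro i
      induction i with
      | zero => exact le_rfl
      | succ i ih => exact (hmono (j + i)).trans ih
    have h3 := h2 (W.J - j)
    rw [Nat.add_sub_cancel' hj] at h3
    linarith
  -- a good scale
  obtain ⟨j, hj, hgood⟩ : ∃ j < W.J, α j ≤ 2 * α (j + 1) := by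
    by_contra hcon
    push Not at hcon
    have h2 : ∀ j ≤ W.J, 2 ^ j * α j ≤ α 0 := by
      intro j
      induction j with
      | zero => intro _; rw [pow_zero, one_mul]
      | succ j ih =>
        intro hj
        have h3 := ih (by omega)
        have h4 := hcon j (by omega)
        have h5 : (0 : ℝ) < 2 ^ j := by positivity
        calc 2 ^ (j + 1) * α (j + 1) = 2 ^ j * (2 * α (j + 1)) := by ring
          _ ≤ 2 ^ j * α j := mul_le_mul_of_nonneg_left h4.le h5.le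
          _ ≤ α 0 := h3
    have h2' : W.J ≠ 0 → 2 ^ W.J * α W.J < α 0 := by
      intro hJ0
      obtain ⟨i, hi'⟩ := Nat.exists_eq_succ_of_ne_zero hJ0
      have h3 := h2 i (by omega)
      have h4 := hcon i (by omega)
      have h5 : (0 : ℝ) < 2 ^ i := by positivity
      rw [hi']
      calc (2 : ℝ) ^ (i + 1) * α (i + 1) = 2 ^ i * (2 * α (i + 1)) := by ring
        _ < 2 ^ i * α i := mul_lt_mul_of_pos_left h4 h5
        _ ≤ α 0 := h3
    have hnum := W.num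
    have h6 : (W.L : ℝ) * (Real.sqrt V1 * Real.sqrt V2) ≤ 2 ^ W.J * W.w * W.M.vol W.r0 := by
      rw [← Real.sqrt_mul hV1p.le]
      exact hnum
    have h7 : W.w * α 0 ≤ Real.sqrt 2 * Real.sqrt V1 := by
      rw [← Real.sqrt_mul (by norm_num : (0 : ℝ) ≤ 2)]
      have := mul_le_mul_of_nonneg_left hup hw0.le
      rwa [mul_div_cancel₀ _ hw0.ne'] at this
    have hs2 : 0 < Real.sqrt V2 := Real.sqrt_pos.2 hV2p
    have hs1 : 0 < Real.sqrt V1 := Real.sqrt_pos.2 hV1p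
    have hL0 : 0 < (W.L : ℝ) := by
      rcases Nat.eq_zero_or_pos W.L with h | h
      · rw [h, Nat.cast_zero, zero_mul, zero_mul] at hlow
        have : 0 < Real.sqrt 2 * W.M.vol W.r0 := by positivity
        linarith
      · exact_mod_cast h
    -- `J = 0` is impossible as well
    have h8 : W.J ≠ 0 := by
      intro hJ0
      rw [hJ0, pow_zero, one_mul] at h6
      have hv1 : (W.M.vol W.r0 : ℝ) ≤ V1 := by
        rw [hV1]; exact_mod_cast W.M.vol_mono (by omega) W.o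
      have hv2 : (W.M.vol W.r0 : ℝ) ≤ V2 := by
        rw [hV2]; exact_mod_cast W.M.vol_mono (by omega) W.o
      have hv3 : (W.M.vol W.r0 : ℝ) ≤ Real.sqrt V1 * Real.sqrt V2 := by
        rw [← Real.sqrt_mul hV1p.le]
        refine Real.le_sqrt_of_sq_le ?_
        rw [sq]
        exact mul_le_mul hv1 hv2 hv0.le hV1p.le
      have hLw : (W.L : ℝ) ≤ W.w := by
        have h9 : (W.L : ℝ) * W.M.vol W.r0 ≤ W.w * W.M.vol W.r0 :=
          (mul_le_mul_of_nonneg_left hv3 hL0.le).trans h6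
        exact le_of_mul_le_mul_right h9 hv0
      have hLw' : W.L ≤ W.w := by exact_mod_cast hLw
      obtain ⟨g, hg, hfar⟩ := W.far
      have h9 := W.small g (Set.pow_subset_pow_right h1 hLw' hg)
      omega
    have h9 := h2' h8
    have h10 : (0 : ℝ) < 2 ^ W.J := by positivity
    -- combine
    have h11 : 2 ^ W.J * W.w * (Real.sqrt 2 * W.M.vol W.r0) ≤
        2 ^ W.J * W.w * (W.L * Real.sqrt V2 * α W.J) :=
      mul_le_mul_of_nonneg_left hlow (by positivity)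
    have h12 : W.L * Real.sqrt V2 * W.w * (2 ^ W.J * α W.J) < W.L * Real.sqrt V2 * W.w * α 0 :=
      mul_lt_mul_of_pos_left h9 (by positivity)
    have h13 : W.L * Real.sqrt V2 * (W.w * α 0) ≤ W.L * Real.sqrt V2 * (Real.sqrt 2 * Real.sqrt V1) :=
      mul_le_mul_of_nonneg_left h7 (by positivity)
    have h14 : Real.sqrt 2 * ((W.L : ℝ) * (Real.sqrt V1 * Real.sqrt V2)) ≤
        Real.sqrt 2 * (2 ^ W.J * W.w * W.M.vol W.r0) :=
      mul_le_mul_of_nonneg_left h6 (Real.sqrt_nonneg _)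
    nlinarith
  -- the approximation
  have ha0 : 0 < α (j + 1) := hpos (j + 1) (by omega)
  refine ⟨{ E := FS W.X
            π := FS.rep Δ
            φ := φ (j + 1)
            a := α (j + 1)
            apos := ha0
            iso := fun g x => FS.norm_rep g x
            le := fun t ht => hα (j + 1) t ht
            low := ?_
            alm := ?_
            inv := fun k hk => hinv k hk (j + 1) }⟩
  · obtain ⟨_, ⟨t, ht, rfl⟩, hlt⟩ := exists_lt_of_lt_csSup (hne (j + 1))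
      (show α (j + 1) / 2 < α (j + 1) by linarith)
    obtain ⟨t0, ht0, κ, hκ, rfl⟩ := hS0 t ht
    refine ⟨t0, ht0, ?_⟩
    have h2 : b (j + 1) (t0 * κ) = cb (FS.rep Δ) (φ (j + 1)) t0 := by
      show FS.rep Δ (t0 * κ) (φ (j + 1)) - φ (j + 1) = FS.rep Δ t0 (φ (j + 1)) - φ (j + 1)
      rw [map_mul, Module.End.mul_apply, hinv κ hκ]
    rw [← h2]
    exact hlt.le
  · intro s hs t ht
    have h2 : cb (FS.rep Δ) (φ (j + 1)) t = W.M.N W.r (b j t) := hbs j t
    rw [h2]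
    have hbsupp : ∀ x ∈ (b j t).supp, W.M.ρ W.o x ≤ 2 * W.A + W.r0 + j * W.r := by
      intro x hx
      have h3 : x ∈ (φ j).supp ∨ t⁻¹ • x ∈ (φ j).supp := by
        by_contra hcon
        rw [not_or, FS.mem_supp, FS.mem_supp, not_not, not_not] at hcon
        rw [FS.mem_supp] at hx
        apply hx
        show (FS.rep Δ t (φ j)).ev x - (φ j).ev x = 0
        rw [FS.rep_ev, hcon.1, hcon.2, sub_zero]
      rcases h3 with h3 | h3
      · have := hsupp j x h3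
        omega
      · have h4 := hsupp j _ h3
        have h5 := W.small t (by
          have := Set.pow_subset_pow_right h1 W.hw (show t ∈ S ^ 1 by rwa [pow_one])
          exact this)
        have h6 := hi t W.o (t⁻¹ • x)
        rw [smul_inv_smul] at h6
        have h7 := W.M.ρ_tri W.o (t • W.o) x
        omega
    have hNsupp := W.M.supp_N (r := W.r) hbsupp
    have h3 : ‖FS.rep Δ s (W.M.N W.r (b j t)) - W.M.N W.r (b j t)‖ ≤
        W.δ * W.M.vol (2 * W.r) / W.M.Z W.r * ‖b j t‖ := by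
      refine HM.key W.M W.hr W.o (b j t) s W.δ W.hδ fun x hx => ?_
      have h4 : W.M.ρ W.o x ≤ 3 * W.A + W.r0 + (j + 1) * W.r := by
        have h5 : x ∈ (W.M.N W.r (b j t)).supp ∨ s⁻¹ • x ∈ (W.M.N W.r (b j t)).supp := by
          by_contra hcon
          rw [not_or, FS.mem_supp, FS.mem_supp, not_not, not_not] at hcon
          rw [FS.mem_supp] at hx
          apply hx
          rw [FS.ev_sub, FS.rep_ev, hcon.1, hcon.2, sub_zero]
        have e1 : (j + 1) * W.r = j * W.r + W.r := Nat.succ_mul _ _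
        rcases h5 with h5 | h5
        · have := hNsupp x h5
          omega
        · have h6 := hNsupp _ h5
          have h7 := W.small s (by
            have := Set.pow_subset_pow_right h1 W.hw (show s ∈ S ^ 1 by rwa [pow_one])
            exact this)
          have h8 := hi s W.o (s⁻¹ • x)
          rw [smul_inv_smul] at h8
          have h9 := W.M.ρ_tri W.o (s • W.o) x
          omega
      refine W.sc s⁻¹ (hSi s hs) x (h4.trans ?_)
      have : (j + 1) * W.r ≤ W.J * W.r := Nat.mul_le_mul_right _ hj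
      omega
    refine h3.trans ?_
    have hZ := W.M.Z_pos W.hr W.o
    have h4 : 2 * ((W.δ : ℝ) * W.M.vol (2 * W.r) / W.M.Z W.r) ≤ ε := by
      rw [mul_div_assoc', div_le_iff₀ hZ]
      have := W.eps
      linarith
    have h5 : ‖b j t‖ ≤ 2 * α (j + 1) := (hα j t ht).trans hgood
    have h6 : (0 : ℝ) ≤ (W.δ : ℝ) * W.M.vol (2 * W.r) / W.M.Z W.r := by positivity
    calc (W.δ : ℝ) * W.M.vol (2 * W.r) / W.M.Z W.r * ‖b j t‖
        ≤ (W.δ : ℝ) * W.M.vol (2 * W.r) / W.M.Z W.r * (2 * α (j + 1)) :=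
          mul_le_mul_of_nonneg_left h5 h6
      _ = (2 * ((W.δ : ℝ) * W.M.vol (2 * W.r) / W.M.Z W.r)) * α (j + 1) := by ring
      _ ≤ ε * α (j + 1) := mul_le_mul_of_nonneg_right h4 ha0.le

/-- **Lemma G** (289, #10844 (II), #14132). -/
theorem lemG {Δ : Type u} [Group Δ] {S : Set Δ} {K1 : Subgroup Δ}
    (hgen : Subgroup.closure S = ⊤) (h1 : (1 : Δ) ∈ S) (hSi : ∀ s ∈ S, s⁻¹ ∈ S)
    (hK : ∀ s ∈ S, ∀ κ ∈ K1, s * κ ∈ S) (S0 : Finset Δ)
    (hS0 : ∀ s ∈ S, ∃ t ∈ S0, ∃ κ ∈ K1, s = t * κ)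
    (H : ∀ ε : ℝ, 0 < ε → Nonempty (GWin.{u, v} Δ S K1 ε)) :
    ∃ χ : Δ →* Multiplicative ℝ, χ ≠ 1 ∧ ∀ κ ∈ K1, χ κ = 1 := by
  obtain ⟨χ, ⟨t, _, ht⟩, hχ⟩ := exists_hom_of_almost.{u, v} (S := S) (S0 := S0)
    (K1 := (K1 : Set Δ)) hgen fun ε hε => by
      obtain ⟨W⟩ := H ε hε
      exact apx_of_win h1 hSi hK S0 hS0 W
  refine ⟨χ, fun h => ht ?_, hχ⟩
  rw [h, MonoidHom.one_apply]

end Vale.Agent.P151.R3.H771
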