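import Vale.Agent.P151.R3.H771.LemG

/-!
# Lemma G with base balls: `S` finite, the homomorphism kills the stabiliser
-/

set_option autoImplicit false

open Finset Pointwise

namespace Vale.Agent.P151.R3.H771

universe u v

/-- One window for Lemma G; `T` is a symmetric set with `T * K1 ⊆ T`, `S ⊆ T` finite. -/
structure GWinK (Γ : Type u) [Group Γ] (T S : Set Γ) (K1 : Subgroup Γ) (ε : ℝ) where
  X : Type v
  [act : MulAction Γ X]
  M : HM X
  iso : ∀ (g : Γ) x y, M.ρ (g • x) (g • y) = M.ρ x y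
  o : X
  fix : ∀ κ ∈ K1, κ • o = o
  r0 : ℕ
  A : ℕ
  r : ℕ
  J : ℕ
  w : ℕ
  L : ℕ
  δ : ℕ
  hr : 1 ≤ r
  hw : 1 ≤ w
  hδ : δ ≤ r
  small : ∀ g ∈ T ^ w, M.ρ o (g • o) ≤ A
  far : ∃ g ∈ (S * (K1 : Set Γ)) ^ L, 2 * (A + r0 + J * r) < M.ρ o (g • o)
  sc : ∀ s ∈ S, ∀ x, M.ρ o x ≤ 3 * A + r0 + J * r → M.ρ x (s • x) ≤ δ
  num : (L : ℝ) * (M.vol (A + r0) * M.vol (A + r0 + J * r) : ℝ).sqrt ≤ 2 ^ J * w * M.vol r0
  eps : 2 * (δ : ℝ) * M.vol (2 * r) ≤ ε * M.Z r

attribute [instance] GWinK.act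

/-- powers of the generating set, with letters of the stabiliser -/
theorem norm_powK_le {Γ : Type u} [Group Γ] {X : Type v} [MulAction Γ X] {S : Set Γ}
    {K1 : Subgroup Γ} {φ : FS X} {a : ℝ} (ha : ∀ t ∈ S, ‖FS.rep Γ t φ - φ‖ ≤ a)
    (hK : ∀ κ ∈ K1, FS.rep Γ κ φ = φ) (n : ℕ) :
    ∀ g ∈ (S * (K1 : Set Γ)) ^ n, ‖FS.rep Γ g φ - φ‖ ≤ n * a := by
  refine norm_pow_le ?_ n
  rintro _ ⟨s, hs, κ, hκ, rfl⟩
  show ‖FS.rep Γ (s * κ) φ - φ‖ ≤ a
  rw [map_mul, Module.End.mul_apply, hK κ hκ]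
  exact ha s hs

/-- **Lemma G, one window.** -/
theorem apx_of_winK {Γ : Type u} [Group Γ] {T S : Set Γ} {K1 : Subgroup Γ} {ε : ℝ}
    (hT1 : (1 : Γ) ∈ T) (hTi : ∀ s ∈ T, s⁻¹ ∈ T) (hTK : ∀ s ∈ T, ∀ κ ∈ K1, s * κ ∈ T)
    (hST : S ⊆ T) (h1 : (1 : Γ) ∈ S) (hSi : ∀ s ∈ S, s⁻¹ ∈ S)
    (S0 : Finset (Subgroup.closure S)) (hS0 : ∀ s : Subgroup.closure S, (s : Γ) ∈ S → s ∈ S0)
    (W : GWinK.{u, v} Γ T S K1 ε) :
    Nonempty (Apx.{u, v} (Subgroup.closure S) {s | (s : Γ) ∈ S} S0 {k | (k : Γ) ∈ K1} ε) := by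
  classical
  have hi : W.M.Iso Γ := W.iso
  let φ : ℕ → FS W.X := fun j =>
    (W.M.N W.r)^[j] (phi0 W.M T W.o W.r0 W.w W.A hi hT1 W.small)
  have hφ0 : φ 0 = phi0 W.M T W.o W.r0 W.w W.A hi hT1 W.small := rfl
  have hφs : ∀ j, φ (j + 1) = W.M.N W.r (φ j) := fun j => Function.iterate_succ_apply' _ _ _
  have hsupp : ∀ j, ∀ x ∈ (φ j).supp, W.M.ρ W.o x ≤ W.A + W.r0 + j * W.r := by
    intro j
    induction j with
    | zero =>
      intro x hx
      have := supp_phi0 hi hT1 W.small x hx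
      omega
    | succ j ih =>
      intro x hx
      rw [hφs] at hx
      have := W.M.supp_N ih x hx
      rw [Nat.succ_mul]
      omega
  have htot : ∀ j, (W.M.vol W.r0 : ℝ) ≤ HM.tot (φ j) := by
    intro j
    induction j with
    | zero => exact tot_phi0 hi hT1 W.small W.hw
    | succ j ih => rw [hφs, W.M.tot_N W.hr]; exact ih
  have hinv : ∀ κ ∈ K1, ∀ j, FS.rep Γ κ (φ j) = φ j := by
    intro κ hκ j
    induction j with
    | zero => exact rep_phi0 hi hT1 W.small hTK W.fix hκ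
    | succ j ih => rw [hφs, ← hi.N_rep, ih]
  let b : ℕ → Γ → FS W.X := fun j t => FS.rep Γ t (φ j) - φ j
  have hbs : ∀ j t, b (j + 1) t = W.M.N W.r (b j t) := by
    intro j t
    show FS.rep Γ t (φ (j + 1)) - φ (j + 1) = W.M.N W.r (FS.rep Γ t (φ j) - φ j)
    rw [map_sub, hi.N_rep, hφs]
  let α : ℕ → ℝ := fun j => sSup ((fun t => ‖b j t‖) '' S)
  have hbdd : ∀ j, BddAbove ((fun t => ‖b j t‖) '' S) := by
    intro j
    refine ⟨2 * ‖φ j‖, ?_⟩
    rintro _ ⟨t, _, rfl⟩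
    show ‖FS.rep Γ t (φ j) - φ j‖ ≤ _
    refine (norm_sub_le _ _).trans ?_
    rw [FS.norm_rep]
    linarith
  have hne : ∀ j, ((fun t => ‖b j t‖) '' S).Nonempty := fun j => ⟨_, 1, h1, rfl⟩
  have hα : ∀ j, ∀ t ∈ S, ‖b j t‖ ≤ α j := fun j t ht => le_csSup (hbdd j) ⟨t, ht, rfl⟩
  have hα0 : ∀ j, 0 ≤ α j := fun j => (norm_nonneg _).trans (hα j 1 h1)
  have hmono : ∀ j, α (j + 1) ≤ α j := by
    intro j
    refine csSup_le (hne _) ?_
    rintro _ ⟨t, ht, rfl⟩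
    show ‖b (j + 1) t‖ ≤ _
    rw [hbs]
    exact (W.M.norm_N_le _ _).trans (hα j t ht)
  -- upper bound for `α 0`
  have hw0 : (0 : ℝ) < W.w := by exact_mod_cast W.hw
  have hup : α 0 ≤ (2 * W.M.vol (W.A + W.r0) : ℝ).sqrt / W.w := by
    refine csSup_le (hne _) ?_
    rintro _ ⟨t, ht, rfl⟩
    exact norm_phi0 hi hT1 W.small hTi W.hw (hST ht)
  -- lower bound for `α J`
  have hv0 : (0 : ℝ) < W.M.vol W.r0 := by exact_mod_cast W.M.vol_pos W.o W.r0
  set V1 : ℝ := ((W.M.vol (W.A + W.r0) : ℕ) : ℝ) with hV1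
  set V2 : ℝ := ((W.M.vol (W.A + W.r0 + W.J * W.r) : ℕ) : ℝ) with hV2
  have hV1p : 0 < V1 := by rw [hV1]; exact_mod_cast W.M.vol_pos W.o _
  have hV2p : 0 < V2 := by rw [hV2]; exact_mod_cast W.M.vol_pos W.o _
  have hlow : Real.sqrt 2 * W.M.vol W.r0 ≤ W.L * Real.sqrt V2 * α W.J := by
    obtain ⟨g, hg, hfar⟩ := W.far
    have h2 := norm_far hi (hsupp W.J) hfar
    have h3 := norm_powK_le (hα W.J) (fun κ hκ => hinv κ hκ W.J) W.L g hg
    have h4 : (W.M.vol W.r0 : ℝ) ^ 2 ≤ V2 * ‖φ W.J‖ ^ 2 := by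
      have h5 := HM.tot_sq_le (φ W.J) (W.M.B W.o (W.A + W.r0 + W.J * W.r)) (fun x hx =>
        (W.M.mem_B _ _ _).2 (hsupp W.J x hx))
      rw [W.M.card_B] at h5
      exact (pow_le_pow_left₀ hv0.le (htot W.J) 2).trans h5
    have h6 : 2 * ‖φ W.J‖ ^ 2 ≤ (W.L * α W.J) ^ 2 := by
      rw [← h2]
      exact pow_le_pow_left₀ (norm_nonneg _) h3 2
    have h7 : (Real.sqrt 2 * W.M.vol W.r0) ^ 2 ≤ (W.L * Real.sqrt V2 * α W.J) ^ 2 := by
      rw [mul_pow, Real.sq_sqrt (by norm_num : (0 : ℝ) ≤ 2)]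
      calc 2 * (W.M.vol W.r0 : ℝ) ^ 2 ≤ 2 * (V2 * ‖φ W.J‖ ^ 2) := by linarith
        _ = V2 * (2 * ‖φ W.J‖ ^ 2) := by ring
        _ ≤ V2 * (W.L * α W.J) ^ 2 := mul_le_mul_of_nonneg_left h6 hV2p.le
        _ = (W.L * Real.sqrt V2 * α W.J) ^ 2 := by
            rw [mul_pow, mul_pow, mul_pow, Real.sq_sqrt hV2p.le]
            ring
    exact (sq_le_sq₀ (by positivity)
      (mul_nonneg (mul_nonneg (Nat.cast_nonneg _) (Real.sqrt_nonneg _)) (hα0 _))).1 h7
  have hJpos : 0 < α W.J := by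
    have h2 : 0 < Real.sqrt 2 * W.M.vol W.r0 := by positivity
    by_contra hcon
    have h3 : α W.J = 0 := le_antisymm (not_lt.1 hcon) (hα0 _)
    rw [h3, mul_zero] at hlow
    linarith
  have hpos : ∀ j ≤ W.J, 0 < α j := by
    intro j hj
    have h2 : ∀ i, α (j + i) ≤ α j := by
      intro i
      induction i with
      | zero => exact le_rfl
      | succ i ih => exact (hmono (j + i)).trans ih
    have h3 := h2 (W.J - j)
    rw [Nat.add_sub_cancel' hj] at h3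
    linarith
  -- a good scale
  obtain ⟨j, hj, hgood⟩ : ∃ j < W.J, α j ≤ 2 * α (j + 1) := by
    by_contra hcon
    push Not at hcon
    have h2 : ∀ j ≤ W.J, 2 ^ j * α j ≤ α 0 := by
      intro j
      induction j with
      | zero => intro _; rw [pow_zero, one_mul]
      | succ j ih =>
        intro hj
        have h3 := ih (by omega)
        have h4 := hcon j (by omega)
        have h5 : (0 : ℝ) < 2 ^ j := by positivity
        calc 2 ^ (j + 1) * α (j + 1) = 2 ^ j * (2 * α (j + 1)) := by ring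
          _ ≤ 2 ^ j * α j := mul_le_mul_of_nonneg_left h4.le h5.le
          _ ≤ α 0 := h3
    have h2' : W.J ≠ 0 → 2 ^ W.J * α W.J < α 0 := by
      intro hJ0
      obtain ⟨i, hi'⟩ := Nat.exists_eq_succ_of_ne_zero hJ0
      have h3 := h2 i (by omega)
      have h4 := hcon i (by omega)
      have h5 : (0 : ℝ) < 2 ^ i := by positivity
      rw [hi']
      calc (2 : ℝ) ^ (i + 1) * α (i + 1) = 2 ^ i * (2 * α (i + 1)) := by ring
        _ < 2 ^ i * α i := mul_lt_mul_of_pos_left h4 h5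
        _ ≤ α 0 := h3
    have hnum := W.num
    have h6 : (W.L : ℝ) * (Real.sqrt V1 * Real.sqrt V2) ≤ 2 ^ W.J * W.w * W.M.vol W.r0 := by
      rw [← Real.sqrt_mul hV1p.le]
      exact hnum
    have h7 : W.w * α 0 ≤ Real.sqrt 2 * Real.sqrt V1 := by
      rw [← Real.sqrt_mul (by norm_num : (0 : ℝ) ≤ 2)]
      have := mul_le_mul_of_nonneg_left hup hw0.le
      rwa [mul_div_cancel₀ _ hw0.ne'] at this
    have hs2 : 0 < Real.sqrt V2 := Real.sqrt_pos.2 hV2p
    have hs1 : 0 < Real.sqrt V1 := Real.sqrt_pos.2 hV1p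
    have hL0 : 0 < (W.L : ℝ) := by
      rcases Nat.eq_zero_or_pos W.L with h | h
      · rw [h, Nat.cast_zero, zero_mul, zero_mul] at hlow
        have : 0 < Real.sqrt 2 * W.M.vol W.r0 := by positivity
        linarith
      · exact_mod_cast h
    -- `J = 0` is impossible as well
    have h8 : W.J ≠ 0 := by
      intro hJ0
      rw [hJ0, pow_zero, one_mul] at h6
      have hv1 : (W.M.vol W.r0 : ℝ) ≤ V1 := by
        rw [hV1]; exact_mod_cast W.M.vol_mono (by omega) W.o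
      have hv2 : (W.M.vol W.r0 : ℝ) ≤ V2 := by
        rw [hV2]; exact_mod_cast W.M.vol_mono (by omega) W.o
      have hv3 : (W.M.vol W.r0 : ℝ) ≤ Real.sqrt V1 * Real.sqrt V2 := by
        rw [← Real.sqrt_mul hV1p.le]
        refine Real.le_sqrt_of_sq_le ?_
        rw [sq]
        exact mul_le_mul hv1 hv2 hv0.le hV1p.le
      have hLw : (W.L : ℝ) ≤ W.w := by
        have h9 : (W.L : ℝ) * W.M.vol W.r0 ≤ W.w * W.M.vol W.r0 :=
          (mul_le_mul_of_nonneg_left hv3 hL0.le).trans h6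
        exact le_of_mul_le_mul_right h9 hv0
      have hLw' : W.L ≤ W.w := by exact_mod_cast hLw
      obtain ⟨g, hg, hfar⟩ := W.far
      have hSK : S * (K1 : Set Γ) ⊆ T := by
        rintro _ ⟨s, hs, κ, hκ, rfl⟩
        exact hTK s (hST hs) κ hκ
      have h9 := W.small g (Set.pow_subset_pow_right hT1 hLw' (Set.pow_subset_pow_left hSK hg))
      omega
    have h9 := h2' h8
    have h10 : (0 : ℝ) < 2 ^ W.J := by positivity
    -- combine
    have h11 : 2 ^ W.J * W.w * (Real.sqrt 2 * W.M.vol W.r0) ≤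
        2 ^ W.J * W.w * (W.L * Real.sqrt V2 * α W.J) :=
      mul_le_mul_of_nonneg_left hlow (by positivity)
    have h12 : W.L * Real.sqrt V2 * W.w * (2 ^ W.J * α W.J) < W.L * Real.sqrt V2 * W.w * α 0 :=
      mul_lt_mul_of_pos_left h9 (by positivity)
    have h13 : W.L * Real.sqrt V2 * (W.w * α 0) ≤ W.L * Real.sqrt V2 * (Real.sqrt 2 * Real.sqrt V1) :=
      mul_le_mul_of_nonneg_left h7 (by positivity)
    have h14 : Real.sqrt 2 * ((W.L : ℝ) * (Real.sqrt V1 * Real.sqrt V2)) ≤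
        Real.sqrt 2 * (2 ^ W.J * W.w * W.M.vol W.r0) :=
      mul_le_mul_of_nonneg_left h6 (Real.sqrt_nonneg _)
    nlinarith
  -- the approximation
  have ha0 : 0 < α (j + 1) := hpos (j + 1) (by omega)
  refine ⟨{ E := FS W.X
            π := (FS.rep Γ).comp (Subgroup.closure S).subtype
            φ := φ (j + 1)
            a := α (j + 1)
            apos := ha0
            iso := fun g x => FS.norm_rep (g : Γ) x
            le := fun t ht => hα (j + 1) (t : Γ) ht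
            low := ?_
            alm := ?_
            inv := fun k hk => hinv (k : Γ) hk (j + 1) }⟩
  · obtain ⟨_, ⟨t, ht, rfl⟩, hlt⟩ := exists_lt_of_lt_csSup (hne (j + 1))
      (show α (j + 1) / 2 < α (j + 1) by linarith)
    exact ⟨⟨t, Subgroup.subset_closure ht⟩, hS0 _ ht, hlt.le⟩
  · rintro ⟨s, hs'⟩ hs ⟨t, ht'⟩ ht
    have hs : s ∈ S := hs
    have ht : t ∈ S := ht
    show ‖FS.rep Γ s (b (j + 1) t) - b (j + 1) t‖ ≤ ε * α (j + 1)
    rw [hbs]
    have hbsupp : ∀ x ∈ (b j t).supp, W.M.ρ W.o x ≤ 2 * W.A + W.r0 + j * W.r := by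
      intro x hx
      have h3 : x ∈ (φ j).supp ∨ t⁻¹ • x ∈ (φ j).supp := by
        by_contra hcon
        rw [not_or, FS.mem_supp, FS.mem_supp, not_not, not_not] at hcon
        rw [FS.mem_supp] at hx
        apply hx
        show (FS.rep Γ t (φ j)).ev x - (φ j).ev x = 0
        rw [FS.rep_ev, hcon.1, hcon.2, sub_zero]
      rcases h3 with h3 | h3
      · have := hsupp j x h3
        omega
      · have h4 := hsupp j _ h3
        have h5 := W.small t (by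
          have := Set.pow_subset_pow_right hT1 W.hw (show t ∈ T ^ 1 by
            rw [pow_one]; exact hST ht)
          exact this)
        have h6 := hi t W.o (t⁻¹ • x)
        rw [smul_inv_smul] at h6
        have h7 := W.M.ρ_tri W.o (t • W.o) x
        omega
    have hNsupp := W.M.supp_N (r := W.r) hbsupp
    have h3 : ‖FS.rep Γ s (W.M.N W.r (b j t)) - W.M.N W.r (b j t)‖ ≤
        W.δ * W.M.vol (2 * W.r) / W.M.Z W.r * ‖b j t‖ := by
      refine HM.key W.M W.hr W.o (b j t) s W.δ W.hδ fun x hx => ?_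
      have h4 : W.M.ρ W.o x ≤ 3 * W.A + W.r0 + (j + 1) * W.r := by
        have h5 : x ∈ (W.M.N W.r (b j t)).supp ∨ s⁻¹ • x ∈ (W.M.N W.r (b j t)).supp := by
          by_contra hcon
          rw [not_or, FS.mem_supp, FS.mem_supp, not_not, not_not] at hcon
          rw [FS.mem_supp] at hx
          apply hx
          rw [FS.ev_sub, FS.rep_ev, hcon.1, hcon.2, sub_zero]
        have e1 : (j + 1) * W.r = j * W.r + W.r := Nat.succ_mul _ _
        rcases h5 with h5 | h5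
        · have := hNsupp x h5
          omega
        · have h6 := hNsupp _ h5
          have h7 := W.small s (by
            have := Set.pow_subset_pow_right hT1 W.hw (show s ∈ T ^ 1 by
              rw [pow_one]; exact hST hs)
            exact this)
          have h8 := hi s W.o (s⁻¹ • x)
          rw [smul_inv_smul] at h8
          have h9 := W.M.ρ_tri W.o (s • W.o) x
          omega
      refine W.sc s⁻¹ (hSi s hs) x (h4.trans ?_)
      have : (j + 1) * W.r ≤ W.J * W.r := Nat.mul_le_mul_right _ hj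
      omega
    refine h3.trans ?_
    have hZ := W.M.Z_pos W.hr W.o
    have h4 : 2 * ((W.δ : ℝ) * W.M.vol (2 * W.r) / W.M.Z W.r) ≤ ε := by
      rw [mul_div_assoc', div_le_iff₀ hZ]
      have := W.eps
      linarith
    have h5 : ‖b j t‖ ≤ 2 * α (j + 1) := (hα j t ht).trans hgood
    have h6 : (0 : ℝ) ≤ (W.δ : ℝ) * W.M.vol (2 * W.r) / W.M.Z W.r := by positivity
    calc (W.δ : ℝ) * W.M.vol (2 * W.r) / W.M.Z W.r * ‖b j t‖
        ≤ (W.δ : ℝ) * W.M.vol (2 * W.r) / W.M.Z W.r * (2 * α (j + 1)) :=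
          mul_le_mul_of_nonneg_left h5 h6
      _ = (2 * ((W.δ : ℝ) * W.M.vol (2 * W.r) / W.M.Z W.r)) * α (j + 1) := by ring
      _ ≤ ε * α (j + 1) := mul_le_mul_of_nonneg_right h4 ha0.le

/-- **Lemma G**, with base balls. -/
theorem lemGK {Γ : Type u} [Group Γ] {T : Set Γ} {S : Set Γ} {K1 : Subgroup Γ}
    (hT1 : (1 : Γ) ∈ T) (hTi : ∀ s ∈ T, s⁻¹ ∈ T) (hTK : ∀ s ∈ T, ∀ κ ∈ K1, s * κ ∈ T)
    (hST : S ⊆ T) (hfin : S.Finite) (h1 : (1 : Γ) ∈ S) (hSi : ∀ s ∈ S, s⁻¹ ∈ S)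
    (H : ∀ ε : ℝ, 0 < ε → Nonempty (GWinK.{u, v} Γ T S K1 ε)) :
    ∃ χ : Subgroup.closure S →* Multiplicative ℝ, χ ≠ 1 ∧
      ∀ κ : Subgroup.closure S, (κ : Γ) ∈ K1 → χ κ = 1 := by
  classical
  have hf : {s : Subgroup.closure S | (s : Γ) ∈ S}.Finite :=
    hfin.preimage Subtype.val_injective.injOn
  have hgen : Subgroup.closure {s : Subgroup.closure S | (s : Γ) ∈ S} = ⊤ :=
    Subgroup.closure_closure_coe_preimage
  obtain ⟨χ, ⟨t, _, ht⟩, hχ⟩ := exists_hom_of_almost.{u, v}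
    (S := {s : Subgroup.closure S | (s : Γ) ∈ S}) (S0 := hf.toFinset)
    (K1 := {k : Subgroup.closure S | (k : Γ) ∈ K1}) hgen fun ε hε => by
      obtain ⟨W⟩ := H ε hε
      exact apx_of_winK hT1 hTi hTK hST h1 hSi hf.toFinset (fun s hs => hf.mem_toFinset.2 hs) W
  refine ⟨χ, fun h => ht ?_, hχ⟩
  rw [h, MonoidHom.one_apply]

end Vale.Agent.P151.R3.H771
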