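import Mathlib

/-!
# Almost invariant cocycles give homomorphisms to `ℝ`

`exists_hom_of_almost`: a group generated by `S` having, for every `ε > 0`, an isometric linear
representation on an inner product space and a vector `φ` with `‖π t φ - φ‖ ≤ a` on `S`,
`‖π t φ - φ‖ ≥ a / 2` for some `t` in a fixed finite set, and
`‖π s (π t φ - φ) - (π t φ - φ)‖ ≤ ε a` for `s`, `t` in `S`, has a nonzero homomorphism to `ℝ`.
-/

set_option autoImplicit false

open Filter Topology

namespace Vale.Agent.P151.R3.H771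

universe u v

section Alg

variable {Δ : Type u} [Group Δ] {E : Type v} [NormedAddCommGroup E] [InnerProductSpace ℝ E]

/-- the coboundary of `φ` -/
def cb (π : Δ →* (E →ₗ[ℝ] E)) (φ : E) (g : Δ) : E := π g φ - φ

theorem cb_mul (π : Δ →* (E →ₗ[ℝ] E)) (φ : E) (g h : Δ) :
    cb π φ (g * h) = cb π φ g + π g (cb π φ h) := by
  unfold cb
  rw [map_mul, Module.End.mul_apply, map_sub]
  abel

theorem cb_one (π : Δ →* (E →ₗ[ℝ] E)) (φ : E) : cb π φ 1 = 0 := by
  unfold cb
  rw [map_one, Module.End.one_apply, sub_self]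

theorem pi_inv_apply (π : Δ →* (E →ₗ[ℝ] E)) (g : Δ) (x : E) : π g⁻¹ (π g x) = x := by
  rw [← Module.End.mul_apply, ← map_mul, inv_mul_cancel, map_one, Module.End.one_apply]

theorem pi_apply_inv (π : Δ →* (E →ₗ[ℝ] E)) (g : Δ) (x : E) : π g (π g⁻¹ x) = x := by
  rw [← Module.End.mul_apply, ← map_mul, mul_inv_cancel, map_one, Module.End.one_apply]

theorem cb_inv (π : Δ →* (E →ₗ[ℝ] E)) (φ : E) (g : Δ) : cb π φ g⁻¹ = -π g⁻¹ (cb π φ g) := by
  have h := cb_mul π φ g⁻¹ g
  rw [inv_mul_cancel, cb_one] at h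
  exact eq_neg_of_add_eq_zero_left h.symm

end Alg

/-- data of one approximation -/
structure Apx (Δ : Type u) [Group Δ] (S : Set Δ) (S0 : Finset Δ) (K1 : Set Δ) (ε : ℝ) where
  E : Type v
  [nacg : NormedAddCommGroup E]
  [ips : InnerProductSpace ℝ E]
  π : Δ →* (E →ₗ[ℝ] E)
  φ : E
  a : ℝ
  apos : 0 < a
  iso : ∀ g x, ‖π g x‖ = ‖x‖
  le : ∀ t ∈ S, ‖cb π φ t‖ ≤ a
  low : ∃ t ∈ S0, a / 2 ≤ ‖cb π φ t‖
  alm : ∀ s ∈ S, ∀ t ∈ S, ‖π s (cb π φ t) - cb π φ t‖ ≤ ε * a
  inv : ∀ k ∈ K1, π k φ = φ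

attribute [instance] Apx.nacg Apx.ips

section Main

variable {Δ : Type u} [Group Δ] {S : Set Δ} {S0 : Finset Δ} {K1 : Set Δ}
  {e : ℕ → ℝ}

theorem bd (D : ∀ n, Apx.{u, v} Δ S S0 K1 (e n))
    (hgen : Subgroup.closure S = ⊤) (g : Δ) :
    ∃ M : ℝ, 0 ≤ M ∧ ∀ n, ‖cb (D n).π (D n).φ g‖ ≤ M * (D n).a := by
  have hg : g ∈ Subgroup.closure S := by rw [hgen]; trivial
  induction hg using Subgroup.closure_induction with
  | mem x hx => exact ⟨1, zero_le_one, fun n => by rw [one_mul]; exact (D n).le x hx⟩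
  | one => exact ⟨0, le_rfl, fun n => by rw [cb_one, norm_zero, zero_mul]⟩
  | mul x y _ _ hx hy =>
    obtain ⟨M, hM, h1⟩ := hx
    obtain ⟨M', hM', h2⟩ := hy
    refine ⟨M + M', add_nonneg hM hM', fun n => ?_⟩
    rw [cb_mul, add_mul]
    refine (norm_add_le _ _).trans (add_le_add (h1 n) ?_)
    rw [(D n).iso]
    exact h2 n
  | inv x _ hx =>
    obtain ⟨M, hM, h1⟩ := hx
    refine ⟨M, hM, fun n => ?_⟩
    rw [cb_inv, norm_neg, (D n).iso]
    exact h1 n

theorem alm1 (D : ∀ n, Apx.{u, v} Δ S S0 K1 (e n))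
    (hgen : Subgroup.closure S = ⊤) (t : Δ) (ht : t ∈ S) (g : Δ) :
    ∃ M : ℝ, 0 ≤ M ∧ ∀ n, ‖(D n).π g (cb (D n).π (D n).φ t) - cb (D n).π (D n).φ t‖ ≤
      M * (e n * (D n).a) := by
  have hg : g ∈ Subgroup.closure S := by rw [hgen]; trivial
  induction hg using Subgroup.closure_induction with
  | mem x hx => exact ⟨1, zero_le_one, fun n => by rw [one_mul]; exact (D n).alm x hx t ht⟩
  | one => exact ⟨0, le_rfl, fun n => by
      rw [map_one, Module.End.one_apply, sub_self, norm_zero, zero_mul]⟩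
  | mul x y _ _ hx hy =>
    obtain ⟨M, hM, h1⟩ := hx
    obtain ⟨M', hM', h2⟩ := hy
    refine ⟨M + M', add_nonneg hM hM', fun n => ?_⟩
    have h3 : (D n).π (x * y) (cb (D n).π (D n).φ t) - cb (D n).π (D n).φ t =
        ((D n).π x (cb (D n).π (D n).φ t) - cb (D n).π (D n).φ t) +
        (D n).π x ((D n).π y (cb (D n).π (D n).φ t) - cb (D n).π (D n).φ t) := by
      rw [map_mul, Module.End.mul_apply, map_sub]
      abel
    rw [h3, add_mul]
    refine (norm_add_le _ _).trans (add_le_add (h1 n) ?_)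
    rw [(D n).iso]
    exact h2 n
  | inv x _ hx =>
    obtain ⟨M, hM, h1⟩ := hx
    refine ⟨M, hM, fun n => ?_⟩
    have h3 : (D n).π x⁻¹ (cb (D n).π (D n).φ t) - cb (D n).π (D n).φ t =
        -(D n).π x⁻¹ ((D n).π x (cb (D n).π (D n).φ t) - cb (D n).π (D n).φ t) := by
      rw [map_sub, pi_inv_apply]
      abel
    rw [h3, norm_neg, (D n).iso]
    exact h1 n

theorem alm2 (D : ∀ n, Apx.{u, v} Δ S S0 K1 (e n))
    (hgen : Subgroup.closure S = ⊤) (h : Δ) :
    ∀ g : Δ, ∃ M : ℝ, 0 ≤ M ∧ ∀ n, ‖(D n).π g (cb (D n).π (D n).φ h) - cb (D n).π (D n).φ h‖ ≤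
      M * (e n * (D n).a) := by
  have hh : h ∈ Subgroup.closure S := by rw [hgen]; trivial
  induction hh using Subgroup.closure_induction with
  | mem x hx => exact fun g => alm1 D hgen x hx g
  | one => exact fun g => ⟨0, le_rfl, fun n => by
      rw [cb_one, map_zero, sub_self, norm_zero, zero_mul]⟩
  | mul x y _ _ hx hy =>
    intro g
    obtain ⟨M, hM, h1⟩ := hx g
    obtain ⟨M', hM', h2⟩ := hy (g * x)
    obtain ⟨M'', hM'', h3⟩ := hy x
    refine ⟨M + M' + M'', by positivity, fun n => ?_⟩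
    have h4 : (D n).π g (cb (D n).π (D n).φ (x * y)) - cb (D n).π (D n).φ (x * y) =
        ((D n).π g (cb (D n).π (D n).φ x) - cb (D n).π (D n).φ x) +
        ((D n).π (g * x) (cb (D n).π (D n).φ y) - cb (D n).π (D n).φ y) -
        ((D n).π x (cb (D n).π (D n).φ y) - cb (D n).π (D n).φ y) := by
      rw [cb_mul, map_mul, Module.End.mul_apply, map_add]
      abel
    rw [h4, add_mul, add_mul]
    refine (norm_sub_le _ _).trans (add_le_add ((norm_add_le _ _).trans ?_) (h3 n))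
    exact add_le_add (h1 n) (h2 n)
  | inv x _ hx =>
    intro g
    obtain ⟨M, hM, h1⟩ := hx (g * x⁻¹)
    obtain ⟨M', hM', h2⟩ := hx x⁻¹
    refine ⟨M + M', add_nonneg hM hM', fun n => ?_⟩
    have h3 : (D n).π g (cb (D n).π (D n).φ x⁻¹) - cb (D n).π (D n).φ x⁻¹ =
        -((D n).π (g * x⁻¹) (cb (D n).π (D n).φ x) - cb (D n).π (D n).φ x) +
        ((D n).π x⁻¹ (cb (D n).π (D n).φ x) - cb (D n).π (D n).φ x) := by
      rw [cb_inv, map_mul, Module.End.mul_apply, map_neg]
      abel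
    rw [h3, add_mul]
    refine (norm_add_le _ _).trans (add_le_add ?_ (h2 n))
    rw [norm_neg]
    exact h1 n

/-- **Almost invariant cocycles give homomorphisms.** -/
theorem exists_hom_of_almost (hgen : Subgroup.closure S = ⊤)
    (H : ∀ ε : ℝ, 0 < ε → Nonempty (Apx.{u, v} Δ S S0 K1 ε)) :
    ∃ χ : Δ →* Multiplicative ℝ, (∃ t ∈ S0, χ t ≠ 1) ∧ ∀ k ∈ K1, χ k = 1 := by
  classical
  let e : ℕ → ℝ := fun n => 1 / ((n : ℝ) + 1)
  have he0 : ∀ n, 0 < e n := fun n => by positivity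
  have he : ∀ n, 0 ≤ e n := fun n => (he0 n).le
  have het : Tendsto e atTop (𝓝 0) := tendsto_one_div_add_atTop_nhds_zero_nat
  let D : ∀ n, Apx.{u, v} Δ S S0 K1 (e n) := fun n => (H (e n) (he0 n)).some
  choose t ht htl using fun n => (D n).low
  let U : Ultrafilter ℕ := Filter.hyperfilter ℕ
  have hU : (U : Filter ℕ) ≤ atTop := by
    rw [← Nat.cofinite_eq_atTop]
    exact Filter.hyperfilter_le_cofinite
  -- the limit letter
  obtain ⟨t0, ht0, ht0U⟩ : ∃ t0 ∈ S0, ∀ᶠ n in (U : Filter ℕ), t n = t0 := by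
    have h1 : ∀ᶠ n in (U : Filter ℕ), ∃ t0 ∈ (S0 : Set Δ), t n = t0 :=
      Eventually.of_forall fun n => ⟨t n, ht n, rfl⟩
    have h2 := (Ultrafilter.eventually_exists_mem_iff (f := U) (his := S0.finite_toSet)
      (P := fun t0 n => t n = t0)).1 h1
    exact h2
  let b : ∀ n, Δ → (D n).E := fun n g => cb (D n).π (D n).φ g
  let c : Δ → ℕ → ℝ := fun g n => inner ℝ (b n g) (b n t0) / (D n).a ^ 2
  choose M hM0 hM using bd D hgen
  have hcb : ∀ g n, |c g n| ≤ M g * M t0 := by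
    intro g n
    have ha := (D n).apos
    have h1 : |inner ℝ (b n g) (b n t0)| ≤ (M g * M t0) * (D n).a ^ 2 := by
      refine (abs_real_inner_le_norm _ _).trans ?_
      calc ‖b n g‖ * ‖b n t0‖ ≤ (M g * (D n).a) * (M t0 * (D n).a) :=
            mul_le_mul (hM g n) (hM t0 n) (norm_nonneg _) (mul_nonneg (hM0 g) ha.le)
        _ = (M g * M t0) * (D n).a ^ 2 := by ring
    show |inner ℝ (b n g) (b n t0) / (D n).a ^ 2| ≤ _
    rw [abs_div, abs_of_pos (by positivity : (0 : ℝ) < (D n).a ^ 2), div_le_iff₀ (by positivity)]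
    exact h1
  have hlim : ∀ g, ∃ x : ℝ, Tendsto (c g) U (𝓝 x) := by
    intro g
    have hcomp : IsCompact (Set.Icc (-(M g * M t0)) (M g * M t0)) := isCompact_Icc
    obtain ⟨x, _, hx⟩ := hcomp.ultrafilter_le_nhds (U.map (c g)) (by
      rw [le_principal_iff]
      exact Filter.mem_map.2 (Filter.univ_mem' fun n => abs_le.1 (hcb g n)))
    exact ⟨x, hx⟩
  choose x hx using hlim
  have hadd : ∀ g h, x (g * h) = x g + x h := by
    intro g h
    obtain ⟨M1, hM1, hM1'⟩ := alm2 D hgen h g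
    have h1 : Tendsto (fun n => c (g * h) n - c g n - c h n) U (𝓝 (x (g * h) - x g - x h)) :=
      ((hx _).sub (hx _)).sub (hx _)
    have h2 : Tendsto (fun n => c (g * h) n - c g n - c h n) U (𝓝 0) := by
      have h3 : Tendsto (fun n => (M1 * M t0) * e n) U (𝓝 0) := by
        have := (het.mono_left hU).const_mul (M1 * M t0)
        rwa [mul_zero] at this
      refine squeeze_zero_norm (fun n => ?_) h3
      have ha := (D n).apos
      have h4 : c (g * h) n - c g n - c h n =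
          inner ℝ ((D n).π g (b n h) - b n h) (b n t0) / (D n).a ^ 2 := by
        show inner ℝ (b n (g * h)) (b n t0) / (D n).a ^ 2 - inner ℝ (b n g) (b n t0) / (D n).a ^ 2 -
          inner ℝ (b n h) (b n t0) / (D n).a ^ 2 = _
        have h5 : b n (g * h) = b n g + (D n).π g (b n h) := cb_mul _ _ _ _
        rw [h5, inner_add_left, inner_sub_left]
        ring
      rw [h4, Real.norm_eq_abs, abs_div, abs_of_pos (by positivity : (0 : ℝ) < (D n).a ^ 2),
        div_le_iff₀ (by positivity)]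
      refine (abs_real_inner_le_norm _ _).trans ?_
      calc ‖(D n).π g (b n h) - b n h‖ * ‖b n t0‖
          ≤ (M1 * (e n * (D n).a)) * (M t0 * (D n).a) :=
            mul_le_mul (hM1' n) (hM t0 n) (norm_nonneg _)
              (mul_nonneg hM1 (mul_nonneg (he n) ha.le))
        _ = M1 * M t0 * e n * (D n).a ^ 2 := by ring
    have h6 := tendsto_nhds_unique h1 h2
    linarith
  have h1 : x 1 = 0 := by
    have := hadd 1 1
    rw [mul_one] at this
    linarith
  refine ⟨{ toFun := fun g => Multiplicative.ofAdd (x g)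
            map_one' := by rw [h1, ofAdd_zero]
            map_mul' := fun g h => by rw [hadd, ofAdd_add] }, ⟨t0, ht0, ?_⟩, ?_⟩
  · intro hcon
    have h2 : x t0 = 0 := hcon
    have h3 : (1 / 4 : ℝ) ≤ x t0 := by
      refine ge_of_tendsto (hx t0) ?_
      filter_upwards [ht0U] with n hn
      have ha := (D n).apos
      show (1 / 4 : ℝ) ≤ inner ℝ (b n t0) (b n t0) / (D n).a ^ 2
      rw [real_inner_self_eq_norm_sq, le_div_iff₀ (by positivity)]
      have h4 : (D n).a / 2 ≤ ‖b n t0‖ := by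
        have := htl n
        rw [hn] at this
        exact this
      nlinarith [norm_nonneg (b n t0)]
    rw [h2] at h3
    norm_num at h3
  · intro k hk
    show Multiplicative.ofAdd (x k) = 1
    have h2 : x k = 0 := by
      refine tendsto_nhds_unique (hx k) ?_
      refine tendsto_const_nhds.congr fun n => ?_
      show (0 : ℝ) = inner ℝ (b n k) (b n t0) / (D n).a ^ 2
      have h3 : b n k = 0 := by
        show (D n).π k (D n).φ - (D n).φ = 0
        rw [(D n).inv k hk, sub_self]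
      rw [h3, inner_zero_left, zero_div]
    rw [h2, ofAdd_zero]

end Main

end Vale.Agent.P151.R3.H771
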